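import Vale.Agent.P011.E6X.H637.Line

/-!
The points of the lines which are orthogonal to a given point near a standard point.
-/

open NumberField

namespace Vale.Agent.P011.E6X.H637

open Vale.Agent.P011.E6O

open Vale.Agent.P011.MPQ Vale.Agent.P011.D4 Vale.Agent.P011.D4.Oct Vale.Agent.P011.E6 Alb
open Vale.Agent.P011.E6X.H493

open scoped ComplexConjugate

variable {k E : Type} [Field k] [Field E] [NumberField E] [Algebra k E]
  {ρ σ : E ≃ₐ[k] E} {lam : Eˣ} {g : Fin 3 → Eˣ} {al s : E} {a b c : kˣ}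

/-- The coordinates at `e'` of the second halves. -/
def cbL (al : E) : AlbL E a b c →ₗ[E] (Fin 3 → E) where
  toFun y i := cb al (sn y i)
  map_add' x y := by funext i; fin_cases i <;> simp [sn]
  map_smul' t x := by funext i; fin_cases i <;> simp [sn]

/-- The coordinates at `e' j` of the second halves. -/
def cdL (al : E) : AlbL E a b c →ₗ[E] (Fin 3 → E) where
  toFun y i := cd al (sn y i)
  map_add' x y := by funext i; fin_cases i <;> simp [sn]
  map_smul' t x := by funext i; fin_cases i <;> simp [sn]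

/-- The coordinates at `e` of the second halves. -/
def caL (al : E) : AlbL E a b c →ₗ[E] (Fin 3 → E) where
  toFun y i := ca al (sn y i)
  map_add' x y := by funext i; fin_cases i <;> simp [sn]
  map_smul' t x := by funext i; fin_cases i <;> simp [sn]

/-- The coordinates at `e j` of the second halves. -/
def cgL (al : E) : AlbL E a b c →ₗ[E] (Fin 3 → E) where
  toFun y i := cg al (sn y i)
  map_add' x y := by funext i; fin_cases i <;> simp [sn]
  map_smul' t x := by funext i; fin_cases i <;> simp [sn]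

/-- An element of the opposite line is determined by its coordinates. -/
theorem eq_zero_em (hal : al ^ 2 = algebraMap k E a) {y : AlbL E a b c}
    (hy : y ∈ Iln c (E6O.em al)) (h1 : cbL al y = 0) (h2 : cdL al y = 0) : y = 0 := by
  have hal' : al ^ 2 = ((up E a : Eˣ) : E) := hal
  obtain ⟨⟨d1, d2, d3⟩, ⟨f1, f2, f3⟩, ⟨a1, a2, a3⟩, g1, g2, g3⟩ := (mem_Iln_em hal).1 hy
  have b1 : ∀ i, cb al (sn y i) = 0 := fun i => congrFun h1 i
  have e1 : ∀ i, cd al (sn y i) = 0 := fun i => congrFun h2 i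
  have key : ∀ q : Qt (up E a) (up E b), ca al q = 0 → cb al q = 0 → cg al q = 0 →
      cd al q = 0 → q = 0 := by
    intro q h1 h2 h3 h4
    apply ext_co two_ne_zero hal' <;> simp [h1, h2, h3, h4]
  apply Alb.ext
  · exact d1
  · exact d2
  · exact d3
  · exact Oct.ext f1 (key _ a1 (b1 0) g1 (e1 0))
  · exact Oct.ext f2 (key _ a2 (b1 1) g2 (e1 1))
  · exact Oct.ext f3 (key _ a3 (b1 2) g3 (e1 2))

/-- **The orthogonal point of the opposite line**: it has a basis near the second standard basis. -/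
theorem exists_U (hal : al ^ 2 = algebraMap k E a) (hσal : σ al = -al)
    (R : Finset (E →+* ℂ)) (hR : R.Nonempty)
    (hRσ : ∀ w ∈ R, ∀ x, w (σ x) = conj (w x)) {δ : ℝ} (hδ : 0 < δ) :
    ∃ ε : ℝ, 0 < ε ∧ ∀ p : Fin 3 → AlbL E a b c,
      (∀ w ∈ R, ∀ j i, ‖w (cb al (sn (p j) i) - if j = i then 1 else 0)‖ < ε) →
      (∀ w ∈ R, ∀ j i, ‖w (cd al (sn (p j) i))‖ < ε) →
      ∀ U : Submodule E (AlbL E a b c), Module.finrank E U = 3 → U ≤ Iln c (E6O.em al) →
        (∀ y ∈ U, ∀ j, her σ g y (p j) = 0) →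
        ∃ u : Fin 3 → AlbL E a b c, (∀ l, u l ∈ U) ∧ (∀ l, cdL al (u l) = Pi.single l 1) ∧
          (∀ x ∈ U, x = ∑ l, cdL al x l • u l) ∧
          ∀ w ∈ R, ∀ l i, ‖w (cbL al (u l) i)‖ < δ := by
  obtain ⟨ε, hε, h⟩ := near_orth R hR hRσ (wts_ne g) ((up E b : Eˣ) : E) hδ
  refine ⟨ε, hε, fun p hp1 hp2 U hU hUI hUp => ?_⟩
  obtain ⟨h1, h2⟩ := h (fun j i => cb al (sn (p j) i)) (fun j i => cd al (sn (p j) i)) hp1 hp2
  have hc : ((up E c : Eˣ) : E) ≠ 0 := (up E c).ne_zero
  have heq : ∀ y ∈ U, ∀ j, ∑ i, wts g i * (cbL al y i * σ (cb al (sn (p j) i)) -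
      ((up E b : Eˣ) : E) * (cdL al y i * σ (cd al (sn (p j) i)))) = 0 := by
    intro y hy j
    have h3 := hUp y hy j
    rw [her_em hal hσal (hUI hy)] at h3
    exact (mul_eq_zero.1 h3).resolve_left (neg_ne_zero.2 hc)
  let f : U →ₗ[E] (Fin 3 → E) := cdL al ∘ₗ U.subtype
  have hf : Function.Injective f := by
    rw [← LinearMap.ker_eq_bot, LinearMap.ker_eq_bot']
    rintro ⟨y, hy⟩ hfy
    have hd : cdL al y = 0 := hfy
    have hb : cbL al y = 0 := by
      apply h1
      intro j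
      have h3 := heq y hy j
      simpa only [hd, Pi.zero_apply, zero_mul, mul_zero, sub_zero] using h3
    exact Subtype.ext (eq_zero_em hal (hUI hy) hb hd)
  have hUf : Module.Finite E U := Module.finite_of_finrank_pos (by rw [hU]; omega)
  have hf' : Function.Surjective f := by
    refine (LinearMap.injective_iff_surjective_of_finrank_eq_finrank ?_).mp hf
    rw [hU, Module.finrank_fin_fun]
  choose u hu using fun l : Fin 3 => hf' (Pi.single l 1)
  refine ⟨fun l => u l, fun l => (u l).2, hu, fun x hx => ?_, fun w hw l i => ?_⟩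
  · have h3 : (⟨x, hx⟩ : U) = ∑ l, cdL al x l • u l := by
      apply hf
      rw [map_sum]
      have h4 : ∀ l, f (cdL al x l • u l) = cdL al x l • Pi.single l 1 := fun l => by
        rw [map_smul, hu]
      simp only [h4]
      funext i
      simp [f, Finset.sum_apply, Pi.single_apply]
    have h4 := congrArg (fun z : U => (z : AlbL E a b c)) h3
    simpa only [Submodule.coe_sum, Submodule.coe_smul] using h4
  · exact h2 _ _ (heq _ (u l).2) l (hu l) w hw i

/-- The Gram matrix of elements of the opposite line. -/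
theorem gram_em (hal : al ^ 2 = algebraMap k E a) (hσal : σ al = -al) {u : Fin 3 → AlbL E a b c}
    (hu : ∀ l, u l ∈ Iln c (E6O.em al)) (hd : ∀ l, cdL al (u l) = Pi.single l 1) (l m : Fin 3) :
    her σ g (u l) (u m) - (if l = m then ((up E b : Eˣ) : E) * ((up E c : Eˣ) : E) * wts g l else 0) =
      -((up E c : Eˣ) : E) * ∑ i, wts g i * (cbL al (u l) i * σ (cbL al (u m) i)) := by
  have e : ∀ l i, cd al (sn (u l) i) = if i = l then 1 else 0 := fun l i => by
    have := congrFun (hd l) i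
    rw [Pi.single_apply] at this
    exact this
  rw [her_em hal hσal (hu l)]
  have h1 : ∀ i, wts g i * (cb al (sn (u l) i) * σ (cb al (sn (u m) i)) -
      ((up E b : Eˣ) : E) * (cd al (sn (u l) i) * σ (cd al (sn (u m) i)))) =
      wts g i * (cbL al (u l) i * σ (cbL al (u m) i)) -
        if i = l then (if i = m then ((up E b : Eˣ) : E) * wts g i else 0) else 0 := by
    intro i
    rw [e, e]
    simp only [cbL, LinearMap.coe_mk, AddHom.coe_mk]
    split_ifs <;> simp <;> ring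
  simp only [h1]
  rw [Finset.sum_sub_distrib, Finset.sum_ite_eq' Finset.univ l]
  simp only [Finset.mem_univ, if_true]
  split_ifs
  · ring
  · ring

/-- **The orthogonal point of the opposite line**: it has a basis near the second standard basis,
with Gram matrix near the standard one. -/
theorem exists_UG (hal : al ^ 2 = algebraMap k E a) (hσal : σ al = -al)
    (R : Finset (E →+* ℂ)) (hR : R.Nonempty)
    (hRσ : ∀ w ∈ R, ∀ x, w (σ x) = conj (w x)) {δ : ℝ} (hδ : 0 < δ) :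
    ∃ ε : ℝ, 0 < ε ∧ ∀ p : Fin 3 → AlbL E a b c,
      (∀ w ∈ R, ∀ j i, ‖w (cb al (sn (p j) i) - if j = i then 1 else 0)‖ < ε) →
      (∀ w ∈ R, ∀ j i, ‖w (cd al (sn (p j) i))‖ < ε) →
      ∀ U : Submodule E (AlbL E a b c), Module.finrank E U = 3 → U ≤ Iln c (E6O.em al) →
        (∀ y ∈ U, ∀ j, her σ g y (p j) = 0) →
        ∃ u : Fin 3 → AlbL E a b c, (∀ l, u l ∈ U) ∧ (∀ l, cdL al (u l) = Pi.single l 1) ∧
          (∀ x ∈ U, x = ∑ l, cdL al x l • u l) ∧
          (∀ w ∈ R, ∀ l i, ‖w (cbL al (u l) i)‖ < δ) ∧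
          ∀ w ∈ R, ∀ l m, ‖w (her σ g (u l) (u m) -
            if l = m then ((up E b : Eˣ) : E) * ((up E c : Eˣ) : E) * wts g l else 0)‖ < δ := by
  obtain ⟨M, hM0, hM⟩ : ∃ M : ℝ, 0 < M ∧ ∀ w ∈ R, ∀ i,
      ‖w (((up E c : Eˣ) : E) * wts g i)‖ ≤ M := by
    refine ⟨1 + ∑ w ∈ R, ∑ i, ‖w (((up E c : Eˣ) : E) * wts g i)‖, by positivity,
      fun w hw i => ?_⟩
    have h1 := (Finset.single_le_sum (f := fun i => ‖w (((up E c : Eˣ) : E) * wts g i)‖)
        (fun _ _ => by positivity) (Finset.mem_univ i)).trans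
        (Finset.single_le_sum (f := fun w : E →+* ℂ =>
          ∑ i, ‖w (((up E c : Eˣ) : E) * wts g i)‖) (fun _ _ => by positivity) hw)
    linarith
  obtain ⟨δ', hδ', h1, h2, h3⟩ : ∃ δ' : ℝ, 0 < δ' ∧ δ' ≤ δ ∧ δ' ≤ 1 ∧ 3 * M * δ' < δ := by
    refine ⟨min (min δ 1) (δ / (3 * M) / 2), by positivity,
      (min_le_left _ _).trans (min_le_left _ _), (min_le_left _ _).trans (min_le_right _ _), ?_⟩
    calc 3 * M * min (min δ 1) (δ / (3 * M) / 2) ≤ 3 * M * (δ / (3 * M) / 2) := by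
          gcongr; exact min_le_right _ _
      _ = δ / 2 := by field_simp
      _ < δ := by linarith
  obtain ⟨ε, hε, h⟩ := exists_U (c := c) hal hσal R hR hRσ (g := g) (b := b) hδ'
  refine ⟨ε, hε, fun p hp1 hp2 U hU hUI hUp => ?_⟩
  obtain ⟨u, hu, hd, hx, hb⟩ := h p hp1 hp2 U hU hUI hUp
  refine ⟨u, hu, hd, hx, fun w hw l i => (hb w hw l i).trans_le h1, fun w hw l m => ?_⟩
  rw [gram_em hal hσal (fun l => hUI (hu l)) hd, neg_mul, map_neg, _root_.norm_neg,
    Finset.mul_sum, map_sum]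
  have h4 : ∀ i ∈ (Finset.univ : Finset (Fin 3)), ‖w (((up E c : Eˣ) : E) *
      (wts g i * (cbL al (u l) i * σ (cbL al (u m) i))))‖ ≤ M * δ' := by
    intro i _
    have e : ((up E c : Eˣ) : E) * (wts g i * (cbL al (u l) i * σ (cbL al (u m) i))) =
        (((up E c : Eˣ) : E) * wts g i) * (cbL al (u l) i * σ (cbL al (u m) i)) := by ring
    rw [e, map_mul w (_ * _) (_ * _), map_mul w (cbL al (u l) i), hRσ w hw, _root_.norm_mul,
      _root_.norm_mul, RCLike.norm_conj]
    have h5 := hb w hw l i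
    have h6 := hb w hw m i
    have h7 : ‖w (cbL al (u l) i)‖ * ‖w (cbL al (u m) i)‖ ≤ δ' * 1 :=
      mul_le_mul h5.le (h6.le.trans h2) (norm_nonneg _) hδ'.le
    exact mul_le_mul (hM w hw i) (h7.trans (by rw [mul_one])) (by positivity) hM0.le
  calc ‖∑ i, w (((up E c : Eˣ) : E) * (wts g i * (cbL al (u l) i * σ (cbL al (u m) i))))‖
      ≤ ∑ i : Fin 3, M * δ' := (norm_sum_le _ _).trans (Finset.sum_le_sum h4)
    _ = 3 * M * δ' := by
      rw [Finset.sum_const, Finset.card_univ, Fintype.card_fin, nsmul_eq_mul]; push_cast; ring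
    _ < δ := h3

/-- The hermitian form between an element of the line and an element multiplied by `j`. -/
theorem her_ep_J (hal : al ^ 2 = algebraMap k E a) (hσal : σ al = -al) {y : AlbL E a b c}
    (hy : y ∈ Iln c (ep al)) {x x' : AlbL E a b c}
    (hx : ∀ i, sn x' i = (⟨0, 0, 1, 0⟩ : Qt (up E a) (up E b)) * sn x i) :
    her σ g y x' = -(((up E c : Eˣ) : E) * ((up E b : Eˣ) : E)) *
      ∑ i, wts g i * (caL al y i * σ (cdL al x i) - cgL al y i * σ (cbL al x i)) := by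
  have hal' : al ^ 2 = ((up E a : Eˣ) : E) := hal
  have hb : σ (((up E b : Eˣ) : E)) = ((up E b : Eˣ) : E) := σ.commutes _
  have j1 : ca al (⟨0, 0, 1, 0⟩ : Qt (up E a) (up E b)) = 0 := by simp [ca]
  have j2 : cb al (⟨0, 0, 1, 0⟩ : Qt (up E a) (up E b)) = 0 := by simp [cb]
  have j3 : cg al (⟨0, 0, 1, 0⟩ : Qt (up E a) (up E b)) = 1 := by simp [cg]
  have j4 : cd al (⟨0, 0, 1, 0⟩ : Qt (up E a) (up E b)) = 1 := by simp [cd]
  rw [her_ep hal hσal hy]
  simp only [hx, ca_mul hal', cg_mul hal', j1, j3, zero_mul, one_mul, zero_add, map_mul, hb,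
    caL, cdL, cgL, cbL, LinearMap.coe_mk, AddHom.coe_mk, Fin.sum_univ_three]
  ring

/-- The elements of the line with given coordinates. -/
def mkI (al : E) (r t : Fin 3 → E) : AlbL E a b c :=
  ⟨0, 0, 0, ⟨0, mkq _ _ al (r 0) 0 (t 0) 0⟩, ⟨0, mkq _ _ al (r 1) 0 (t 1) 0⟩,
    ⟨0, mkq _ _ al (r 2) 0 (t 2) 0⟩⟩

theorem mkI_mem (hal : al ^ 2 = algebraMap k E a) (r t : Fin 3 → E) :
    (mkI al r t : AlbL E a b c) ∈ Iln c (ep al) := by
  have hal' : al ^ 2 = ((up E a : Eˣ) : E) := hal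
  have e := fun p q r s => mkq_co (b := up E b) (two_ne_zero (α := E)) hal' p q r s
  rw [mem_Iln_ep hal]
  simp only [mkI, (e _ _ _ _).2.1, (e _ _ _ _).2.2.2, and_self]

theorem caL_mkI (hal : al ^ 2 = algebraMap k E a) (r t : Fin 3 → E) :
    caL al (mkI al r t : AlbL E a b c) = r := by
  have hal' : al ^ 2 = ((up E a : Eˣ) : E) := hal
  have e := fun p q r s => mkq_co (b := up E b) (two_ne_zero (α := E)) hal' p q r s
  funext i
  fin_cases i <;> exact (e _ _ _ _).1

theorem cgL_mkI (hal : al ^ 2 = algebraMap k E a) (r t : Fin 3 → E) :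
    cgL al (mkI al r t : AlbL E a b c) = t := by
  have hal' : al ^ 2 = ((up E a : Eˣ) : E) := hal
  have e := fun p q r s => mkq_co (b := up E b) (two_ne_zero (α := E)) hal' p q r s
  funext i
  fin_cases i <;> exact (e _ _ _ _).2.2.1

/-- The `l`-th element of the basis of the opposite point. -/
def vv (σ : E ≃ₐ[k] E) (g : Fin 3 → Eˣ) (al : E) (u : Fin 3 → AlbL E a b c) (l : Fin 3) :
    AlbL E a b c :=
  mkI al (fun j => wts g l / wts g j * σ (cbL al (u j) l)) (Pi.single l 1)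

/-- **The opposite point**: an explicit basis. -/
theorem vv_orth (hal : al ^ 2 = algebraMap k E a) (hσal : σ al = -al)
    {U : Submodule E (AlbL E a b c)} {u : Fin 3 → AlbL E a b c}
    (hx : ∀ x ∈ U, x = ∑ l, cdL al x l • u l)
    (l : Fin 3) {x x' : AlbL E a b c} (hxU : x ∈ U)
    (hx' : ∀ i, sn x' i = (⟨0, 0, 1, 0⟩ : Qt (up E a) (up E b)) * sn x i) :
    her σ g (vv σ g al u l) x' = 0 := by
  rw [vv, her_ep_J hal hσal (mkI_mem hal _ _) hx', caL_mkI hal, cgL_mkI hal]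
  have h1 : ∀ i, cbL al x i = ∑ m, cdL al x m * cbL al (u m) i := by
    intro i
    have h2 := congrArg (fun z => cbL al z i) (hx x hxU)
    simpa only [map_sum, map_smul, Finset.sum_apply, Pi.smul_apply, smul_eq_mul] using h2
  have h2 : ∑ i, wts g i * (wts g l / wts g i * σ (cbL al (u i) l) * σ (cdL al x i) -
      (Pi.single l 1 : Fin 3 → E) i * σ (cbL al x i)) = 0 := by
    simp only [mul_sub, Finset.sum_sub_distrib, Pi.single_apply, ite_mul, one_mul, zero_mul,
      mul_ite, mul_zero, Finset.sum_ite_eq', Finset.mem_univ, if_true, h1 l, map_sum, map_mul,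
      Finset.mul_sum]
    rw [← Finset.sum_sub_distrib]
    refine Finset.sum_eq_zero fun i _ => ?_
    have := wts_ne g i
    field_simp
    ring
  rw [h2, mul_zero]

/-- **The two points of the lines**: the orthogonal point of the opposite line and its opposite. -/
theorem exists_UV (hal : al ^ 2 = algebraMap k E a) (hσal : σ al = -al)
    (R : Finset (E →+* ℂ)) (hR : R.Nonempty)
    (hRσ : ∀ w ∈ R, ∀ x, w (σ x) = conj (w x)) {δ : ℝ} (hδ : 0 < δ) :
    ∃ ε : ℝ, 0 < ε ∧ ∀ p : Fin 3 → AlbL E a b c,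
      (∀ w ∈ R, ∀ j i, ‖w (cb al (sn (p j) i) - if j = i then 1 else 0)‖ < ε) →
      (∀ w ∈ R, ∀ j i, ‖w (cd al (sn (p j) i))‖ < ε) →
      ∀ U : Submodule E (AlbL E a b c), Module.finrank E U = 3 → U ≤ Iln c (E6O.em al) →
        (∀ y ∈ U, ∀ j, her σ g y (p j) = 0) →
        ∃ u v : Fin 3 → AlbL E a b c, (∀ l, u l ∈ U) ∧ (∀ l, cdL al (u l) = Pi.single l 1) ∧
          (∀ x ∈ U, x = ∑ l, cdL al x l • u l) ∧
          (∀ w ∈ R, ∀ l i, ‖w (cbL al (u l) i)‖ < δ) ∧
          (∀ w ∈ R, ∀ l m, ‖w (her σ g (u l) (u m) -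
            if l = m then ((up E b : Eˣ) : E) * ((up E c : Eˣ) : E) * wts g l else 0)‖ < δ) ∧
          (∀ l, v l ∈ Iln c (ep al)) ∧ (∀ l, cgL al (v l) = Pi.single l 1) ∧
          (∀ l, ∀ x ∈ U, ∀ x' : AlbL E a b c,
            (∀ i, sn x' i = (⟨0, 0, 1, 0⟩ : Qt (up E a) (up E b)) * sn x i) →
            her σ g (v l) x' = 0) ∧
          ∀ w ∈ R, ∀ l i, ‖w (caL al (v l) i)‖ < δ := by
  obtain ⟨M, hM0, hM⟩ : ∃ M : ℝ, 0 < M ∧ ∀ w ∈ R, ∀ l i,
      ‖w (wts g l / wts g i)‖ ≤ M := by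
    refine ⟨1 + ∑ w ∈ R, ∑ l, ∑ i, ‖w (wts g l / wts g i)‖, by positivity,
      fun w hw l i => ?_⟩
    have h1 := ((Finset.single_le_sum (f := fun i => ‖w (wts g l / wts g i)‖)
        (fun _ _ => by positivity) (Finset.mem_univ i)).trans
        (Finset.single_le_sum (f := fun l => ∑ i, ‖w (wts g l / wts g i)‖)
        (fun _ _ => by positivity) (Finset.mem_univ l))).trans
        (Finset.single_le_sum (f := fun w : E →+* ℂ =>
          ∑ l, ∑ i, ‖w (wts g l / wts g i)‖) (fun _ _ => by positivity) hw)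
    linarith
  obtain ⟨δ', hδ', h1, h2⟩ : ∃ δ' : ℝ, 0 < δ' ∧ δ' ≤ δ ∧ M * δ' < δ := by
    refine ⟨min δ (δ / M / 2), by positivity, min_le_left _ _, ?_⟩
    calc M * min δ (δ / M / 2) ≤ M * (δ / M / 2) := by
          gcongr; exact min_le_right _ _
      _ = δ / 2 := by field_simp
      _ < δ := by linarith
  obtain ⟨ε, hε, h⟩ := exists_UG (c := c) hal hσal R hR hRσ (g := g) (b := b) hδ'
  refine ⟨ε, hε, fun p hp1 hp2 U hU hUI hUp => ?_⟩
  obtain ⟨u, hu, hd, hx, hb, hG⟩ := h p hp1 hp2 U hU hUI hUp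
  refine ⟨u, vv σ g al u, hu, hd, hx, fun w hw l i => (hb w hw l i).trans_le h1,
    fun w hw l m => (hG w hw l m).trans_le h1, fun l => mkI_mem hal _ _,
    fun l => cgL_mkI hal _ _, fun l x hxU x' hx' => vv_orth hal hσal hx l hxU hx',
    fun w hw l i => ?_⟩
  rw [vv, caL_mkI hal]
  rw [map_mul, hRσ w hw, _root_.norm_mul, RCLike.norm_conj]
  calc ‖w (wts g l / wts g i)‖ * ‖w (cbL al (u i) l)‖ ≤ M * δ' :=
        mul_le_mul (hM w hw l i) (hb w hw i l).le (norm_nonneg _) hM0.le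
    _ < δ := h2

end Vale.Agent.P011.E6X.H637
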