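import Vale.Agent.P011.E6X.XDefs
import Vale.Agent.P011.E6X.H637.NearU
import Vale.Agent.P011.E6X.H69.TyAt

/-!
Block E6X, row X4b: the points of the two lines near the standard points.
-/

open NumberField Matrix

namespace Vale.Agent.P011.E6X.H637

open Vale.Agent.P011.MPQ Vale.Agent.P011.D4 Vale.Agent.P011.D4.Oct Vale.Agent.P011.E6
open Vale.Agent.P011.E6O
open Vale.Agent.P011.E6O.Sl (XX YY ZZ)
open Vale.Agent.P011.E6X.H493 (mem_Iln_ep mem_Iln_em)

variable {k E : Type} [Field k] [NumberField k] [Field E] [NumberField E] [Algebra k E]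
  {ρ σ : E ≃ₐ[k] E} {lam : Eˣ} {g : Fin 3 → Eˣ} {al s : E} {a b c : kˣ}

omit [NumberField k] [NumberField E] in
theorem le_nw (w : E →+* ℂ) (y : AlbL E a b c) (i j : Fin 3) :
    ‖w (XX al y i j)‖ + ‖w (YY al y i j)‖ + ‖w (ZZ al y i j)‖ ≤ nw w al y :=
  (Finset.single_le_sum (f := fun j => ‖w (XX al y i j)‖ + ‖w (YY al y i j)‖ + ‖w (ZZ al y i j)‖)
    (fun _ _ => by positivity) (Finset.mem_univ j)).trans
    (Finset.single_le_sum (f := fun i => ∑ j, (‖w (XX al y i j)‖ + ‖w (YY al y i j)‖ +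
      ‖w (ZZ al y i j)‖)) (fun _ _ => by positivity) (Finset.mem_univ i))

omit [NumberField k] [NumberField E] in
theorem le_nwY (w : E →+* ℂ) (y : AlbL E a b c) (i j : Fin 3) :
    ‖w (YY al y i j)‖ ≤ nw w al y := by
  have := le_nw (al := al) w y i j
  linarith [norm_nonneg (w (XX al y i j)), norm_nonneg (w (ZZ al y i j))]

omit [NumberField k] [NumberField E] in
theorem le_nwZ (w : E →+* ℂ) (y : AlbL E a b c) (i j : Fin 3) :
    ‖w (ZZ al y i j)‖ ≤ nw w al y := by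
  have := le_nw (al := al) w y i j
  linarith [norm_nonneg (w (XX al y i j)), norm_nonneg (w (YY al y i j))]

omit [NumberField k] [NumberField E] in
theorem ZZ_cb (y : AlbL E a b c) (i : Fin 3) :
    ZZ al y i 0 = -((up E c : Eˣ) : E) * cbL al y i := by
  fin_cases i <;> rfl

omit [NumberField k] [NumberField E] in
theorem YY_cd (y : AlbL E a b c) (i : Fin 3) :
    YY al y 2 i = ((up E b : Eˣ) : E) * ((up E c : Eˣ) : E) * cdL al y i := by
  fin_cases i <;> rfl

omit [NumberField k] in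
theorem cbL_pb (hal : al ^ 2 = algebraMap k E a) (j : Fin 3) :
    cbL al (pb (xm al) j : AlbL E a b c) = Pi.single j 1 := by
  have hal' : al ^ 2 = ((up E a : Eˣ) : E) := hal
  have e := fun p q r s => mkq_co (b := up E b) (two_ne_zero (α := E)) hal' p q r s
  funext i
  fin_cases j <;> fin_cases i <;>
    simp [cbL, sn, pb, xm, (e _ _ _ _).2.1]

omit [NumberField k] in
theorem cdL_pb (hal : al ^ 2 = algebraMap k E a) (j : Fin 3) :
    cdL al (pb (xm al) j : AlbL E a b c) = 0 := by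
  have hal' : al ^ 2 = ((up E a : Eˣ) : E) := hal
  have e := fun p q r s => mkq_co (b := up E b) (two_ne_zero (α := E)) hal' p q r s
  funext i
  fin_cases j <;> fin_cases i <;>
    simp [cdL, sn, pb, xm, (e _ _ _ _).2.2.2]

omit [NumberField k] in
theorem sub_pb (hal : al ^ 2 = algebraMap k E a) (α : Fin 3 → E) (l : Fin 3) :
    (mkI al α (Pi.single l 1) : AlbL E a b c) - pb (xj al) l = mkI al α 0 := by
  have hal' : al ^ 2 = ((up E a : Eˣ) : E) := hal
  have e := fun p q r s => mkq_co (b := up E b) (two_ne_zero (α := E)) hal' p q r s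
  have h0 : ∀ q : Qt (up E a) (up E b), (0 : E) • q = 0 := fun q => zero_smul _ _
  have key : ∀ x : E, (mkq (up E a) (up E b) al x 0 1 0) - mkq (up E a) (up E b) al 0 0 1 0 =
      mkq (up E a) (up E b) al x 0 0 0 := by
    intro x
    apply ext_co two_ne_zero hal' <;> simp [(e _ _ _ _).1, (e _ _ _ _).2.1, (e _ _ _ _).2.2.1,
      (e _ _ _ _).2.2.2]
  apply Alb.ext
  · simp [mkI, pb]
  · simp [mkI, pb]
  · simp [mkI, pb]
  all_goals
    apply Oct.ext
    · fin_cases l <;> simp [mkI, pb, xj]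
    · fin_cases l <;> simp [mkI, pb, xj, key]

omit [NumberField k] in
theorem eq_mkI (hal : al ^ 2 = algebraMap k E a) {y : AlbL E a b c} (hy : y ∈ Iln c (ep al)) :
    y = mkI al (caL al y) (cgL al y) := by
  have hal' : al ^ 2 = ((up E a : Eˣ) : E) := hal
  have e := fun p q r s => mkq_co (b := up E b) (two_ne_zero (α := E)) hal' p q r s
  obtain ⟨⟨h1, h2, h3⟩, ⟨h4, h5, h6⟩, ⟨h7, h8, h9⟩, h10, h11, h12⟩ := (mem_Iln_ep hal).1 hy
  have key : ∀ q : Qt (up E a) (up E b), cb al q = 0 → cd al q = 0 →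
      q = mkq (up E a) (up E b) al (ca al q) 0 (cg al q) 0 := by
    intro q h1 h2
    apply ext_co two_ne_zero hal' <;> simp [(e _ _ _ _).1, (e _ _ _ _).2.1, (e _ _ _ _).2.2.1,
      (e _ _ _ _).2.2.2, h1, h2]
  apply Alb.ext
  · exact h1
  · exact h2
  · exact h3
  · exact Oct.ext h4 (key _ h7 h10)
  · exact Oct.ext h5 (key _ h8 h11)
  · exact Oct.ext h6 (key _ h9 h12)

omit [NumberField k] in
theorem nw_mkI (hal : al ^ 2 = algebraMap k E a) (w : E →+* ℂ) (α : Fin 3 → E) :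
    nw w al (mkI al α 0 : AlbL E a b c) = ∑ j, ‖w (α j)‖ := by
  have hal' : al ^ 2 = ((up E a : Eˣ) : E) := hal
  have e := fun p q r s => mkq_co (b := up E b) (two_ne_zero (α := E)) hal' p q r s
  have hX : XX al (mkI al α 0 : AlbL E a b c) = 0 := by
    ext i j
    fin_cases i <;> fin_cases j <;> simp [XX, mkI]
  have hY : ∀ i j, YY al (mkI al α 0 : AlbL E a b c) i j = if i = 0 then α j else 0 := by
    intro i j
    fin_cases i <;> fin_cases j <;> simp [YY, mkI, (e _ _ _ _).1, (e _ _ _ _).2.2.2]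
  have hZ : ZZ al (mkI al α 0 : AlbL E a b c) = 0 := by
    ext i j
    fin_cases i <;> fin_cases j <;> simp [ZZ, mkI, (e _ _ _ _).2.1, (e _ _ _ _).2.2.1]
  unfold nw
  simp only [hX, hY, hZ, Matrix.zero_apply, map_zero, _root_.norm_zero, zero_add, add_zero]
  simp [Fin.sum_univ_three]

end Vale.Agent.P011.E6X.H637

namespace Vale.Agent.P011.E6X

open Vale.Agent.P011.MPQ Vale.Agent.P011.D4 Vale.Agent.P011.D4.Oct Vale.Agent.P011.E6
open Vale.Agent.P011.E6O
open Vale.Agent.P011.E6O.Sl (XX YY ZZ)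
open Vale.Agent.P011.E6X.H637

variable {k E : Type} [Field k] [NumberField k] [Field E] [NumberField E] [Algebra k E]
  {ρ σ : E ≃ₐ[k] E} {lam : Eˣ} {g : Fin 3 → Eˣ} {al s : E} {a b c : kˣ}

/-- A point which is near the first standard point of the opposite line is orthogonal to a point
of this line with a known form, and the opposite point is near the standard one. -/
theorem near_U (H : E6X.Hyp ρ σ lam g al s a b c) {w : E →+* ℂ} (hw : SC σ w) {δ : ℝ}
    (hδ : 0 < δ) : ∃ ε : ℝ, 0 < ε ∧ ∀ P U : Submodule E (AlbL E a b c),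
      IsPt ρ lam P → IsPt ρ lam U → U ≤ Iln c (E6O.em al) →
      (∀ y ∈ U, ∀ x ∈ P, her σ g y x = 0) → NearP w al ε (xm al) P →
        TyAt σ g w ((b : k) * c) U ∧ NearP w al δ (xj al) (opp σ g al U) := by
  have hb0 : ((up E b : Eˣ) : E) ≠ 0 := (up E b).ne_zero
  have hc0 : ((up E c : Eˣ) : E) ≠ 0 := (up E c).ne_zero
  have hbc : (b : k) * c ≠ 0 := mul_ne_zero b.ne_zero c.ne_zero
  obtain ⟨δ₁, hδ₁, hT⟩ := tyAt_near hw H.σg hbc
  obtain ⟨δ₂, hδ₂, h21, h22⟩ : ∃ δ₂ : ℝ, 0 < δ₂ ∧ δ₂ ≤ δ₁ ∧ 3 * δ₂ ≤ δ :=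
    ⟨min δ₁ (δ / 3), by positivity, min_le_left _ _, by
      linarith [min_le_right δ₁ (δ / 3)]⟩
  obtain ⟨ε, hε, h⟩ := exists_UV (c := c) H.al2 H.σal {w} ⟨w, Finset.mem_singleton_self w⟩
    (fun w' hw' => by rw [Finset.mem_singleton.1 hw']; exact hw) (g := g) (b := b) hδ₂
  have hwb : 0 < ‖w ((up E b : Eˣ) : E)‖ := norm_pos_iff.2 ((map_ne_zero w).2 hb0)
  have hwc : 0 < ‖w ((up E c : Eˣ) : E)‖ := norm_pos_iff.2 ((map_ne_zero w).2 hc0)
  obtain ⟨ε', hε', h3, h4⟩ : ∃ ε' : ℝ, 0 < ε' ∧ ε' < ε * ‖w ((up E c : Eˣ) : E)‖ ∧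
      ε' < ε * (‖w ((up E b : Eˣ) : E)‖ * ‖w ((up E c : Eˣ) : E)‖) := by
    refine ⟨min (ε * ‖w ((up E c : Eˣ) : E)‖)
      (ε * (‖w ((up E b : Eˣ) : E)‖ * ‖w ((up E c : Eˣ) : E)‖)) / 2, by positivity, ?_, ?_⟩
    · have h5 : 0 < ε * ‖w ((up E c : Eˣ) : E)‖ := by positivity
      have := min_le_left (ε * ‖w ((up E c : Eˣ) : E)‖)
        (ε * (‖w ((up E b : Eˣ) : E)‖ * ‖w ((up E c : Eˣ) : E)‖))
      linarith
    · have h5 : 0 < ε * (‖w ((up E b : Eˣ) : E)‖ * ‖w ((up E c : Eˣ) : E)‖) := by positivity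
      have := min_le_right (ε * ‖w ((up E c : Eˣ) : E)‖)
        (ε * (‖w ((up E b : Eˣ) : E)‖ * ‖w ((up E c : Eˣ) : E)‖))
      linarith
  refine ⟨ε', hε', fun P U hP hU hUI hUP hN => ?_⟩
  obtain ⟨p, hp, hpn⟩ := hN
  obtain ⟨u, v, hu, hd, hx, -, hG, hvI, hvg, hvo, hva⟩ := h p (by
    intro w' hw' j i
    rw [Finset.mem_singleton.1 hw']
    have e1 : cb al (sn (p j) i) - (if j = i then (1 : E) else 0) =
        cbL al (p j - pb (xm al) j) i := by
      rw [map_sub, cbL_pb H.al2, Pi.sub_apply, Pi.single_apply]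
      simp only [eq_comm (a := i)]
      rfl
    have e2 := (le_nwZ (al := al) w (p j - pb (xm al) j) i 0).trans (hpn j)
    rw [ZZ_cb, map_mul, _root_.norm_mul, map_neg, _root_.norm_neg] at e2
    rw [e1]
    by_contra hcon
    rw [not_lt] at hcon
    nlinarith [mul_le_mul_of_nonneg_left hcon hwc.le]) (by
    intro w' hw' j i
    rw [Finset.mem_singleton.1 hw']
    have e1 : cd al (sn (p j) i) = cdL al (p j - pb (xm al) j) i := by
      rw [map_sub, cdL_pb H.al2, sub_zero]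
      rfl
    have e2 := (le_nwY (al := al) w (p j - pb (xm al) j) 2 i).trans (hpn j)
    rw [YY_cd, map_mul, _root_.norm_mul, map_mul, _root_.norm_mul] at e2
    rw [e1]
    by_contra hcon
    rw [not_lt] at hcon
    have h6 : 0 < ‖w ((up E b : Eˣ) : E)‖ * ‖w ((up E c : Eˣ) : E)‖ := by positivity
    nlinarith [mul_le_mul_of_nonneg_left hcon h6.le]) U hU.dim hUI (fun y hy j => hUP y hy _ (hp j))
  have hww : w ∈ ({w} : Finset (E →+* ℂ)) := Finset.mem_singleton_self w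
  refine ⟨⟨u, hu, hT _ (gram_herm H hw u) fun i j => ?_⟩, v, fun l => ?_, fun l => ?_⟩
  · have h5 := (hG w hww i j).trans_le h21
    have e1 : w (algebraMap k E ((b : k) * c)) * gst g w i j =
        w (if i = j then ((up E b : Eˣ) : E) * ((up E c : Eˣ) : E) * wts g i else 0) := by
      have e2 : algebraMap k E ((b : k) * c) = ((up E b : Eˣ) : E) * ((up E c : Eˣ) : E) :=
        map_mul _ _ _
      rw [e2, gst, Matrix.diagonal_apply]
      split_ifs with hij
      · subst hij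
        rw [map_mul w _ (wts g i)]
        congr 1
        fin_cases i <;> rfl
      · rw [mul_zero, map_zero]
    rw [e1]
    change ‖w (her σ g (u i) (u j)) - _‖ < δ₁
    rw [← map_sub]
    exact h5
  · refine ⟨hvI l, fun x hx => ?_⟩
    rw [← her_star H.σ2 H.σg, hvo l x hx (jl x) (fun i => by fin_cases i <;> rfl), map_zero]
  · rw [eq_mkI H.al2 (hvI l), hvg l, sub_pb H.al2, nw_mkI H.al2, Fin.sum_univ_three]
    have e0 := hva w hww l 0
    have e1 := hva w hww l 1
    have e2 := hva w hww l 2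
    linarith

end Vale.Agent.P011.E6X
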