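import Vale.Agent.P011.E6X.Trip
import Vale.Agent.P011.E6X.XDefs
import Vale.Agent.P011.E6X.H342.Co
import Vale.Agent.P011.E6X.H714.Tau
import Vale.Agent.P011.RP.Dense

/-!
Block E6X, row X6: every octonion algebra with a given quadratic subfield has coordinates with good
signs.
-/

open NumberField

namespace Vale.Agent.P011.E6X.H637

open Vale.Agent.P011.MPQ Vale.Agent.P011.D4 Vale.Agent.P011.D4.Oct Vale.Agent.P011.E6

section trips

variable {k : Type} [Field k] {a b c : kˣ}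

/-- A change of the third generator. -/
theorem trip1 (t : k) {c' : kˣ} (hc : (c' : k) = c * (1 - b * t ^ 2)) :
    Trip a b c' gi gj (⟨0, ⟨1, 0, t, 0⟩⟩ : Oct a b c) where
  si := by apply ext8 <;> simp [gi]
  sj := by apply ext8 <;> simp [gj]
  sl := by apply ext8 <;> simp
  ii := by apply ext8 <;> simp [gi]
  jj := by apply ext8 <;> simp [gj]
  ll := by
    rw [hc]
    apply ext8 <;> simp
    ring
  ij := by simp [dot, gi, gj]
  il := by simp [dot, gi]
  jl := by simp [dot, gj]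
  ijl := by simp [dot, gi, gj]

/-- A change of the second generator. -/
theorem trip2 (t : k) {b' : kˣ} (hb : (b' : k) = b * (1 - c * t ^ 2)) :
    Trip a b' c gi (⟨⟨0, 0, 1, 0⟩, ⟨0, 0, t, 0⟩⟩ : Oct a b c) gl where
  si := by apply ext8 <;> simp [gi]
  sj := by apply ext8 <;> simp
  sl := by apply ext8 <;> simp [gl]
  ii := by apply ext8 <;> simp [gi]
  jj := by
    rw [hb]
    apply ext8 <;> simp
    ring
  ll := by apply ext8 <;> simp [gl]
  ij := by simp [dot, gi]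
  il := by simp [dot, gi, gl]
  jl := by simp [dot, gl]
  ijl := by simp [dot, gi, gl]

end trips

/-- Elements of a number field in given open sets at the real places. -/
theorem exists_open {k : Type} [Field k] [NumberField k] (U : (k →+* ℝ) → Set ℝ)
    (hU : ∀ τ, IsOpen (U τ)) (hne : ∀ τ, (U τ).Nonempty) : ∃ t : k, ∀ τ : k →+* ℝ, τ t ∈ U τ := by
  choose r hr using hne
  choose ε hε hb using fun τ => Metric.isOpen_iff.1 (hU τ) (r τ) (hr τ)
  obtain ⟨δ, hδ, hδε⟩ : ∃ δ : ℝ, 0 < δ ∧ ∀ τ : k →+* ℝ, δ ≤ ε τ := by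
    rcases isEmpty_or_nonempty (k →+* ℝ) with h | h
    · exact ⟨1, one_pos, fun τ => (h.false τ).elim⟩
    · obtain ⟨τ₀, h0⟩ := Finite.exists_min ε
      exact ⟨ε τ₀, hε τ₀, h0⟩
  obtain ⟨t, ht⟩ := RP.real_dense r hδ
  refine ⟨t, fun τ => hb τ ?_⟩
  rw [Metric.mem_ball, Real.dist_eq]
  exact (ht τ).trans_le (hδε τ)

/-- The sign of `1 - b t²` can be prescribed at the places where `b` is positive. -/
theorem exists_sign {k : Type} [Field k] [NumberField k] (b : kˣ) (p : (k →+* ℝ) → Prop) :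
    ∃ t : k, ∀ τ : k →+* ℝ, (0 < τ b → p τ → 1 - τ b * (τ t) ^ 2 < 0) ∧
      ((¬ (0 < τ b ∧ p τ)) → 0 < 1 - τ b * (τ t) ^ 2) := by
  classical
  obtain ⟨t, ht⟩ := exists_open (fun τ : k →+* ℝ => if 0 < τ b ∧ p τ then
    {x : ℝ | 1 - τ b * x ^ 2 < 0} else {x : ℝ | 0 < 1 - τ b * x ^ 2}) (by
      intro τ
      split_ifs
      · exact isOpen_lt (by fun_prop) (by fun_prop)
      · exact isOpen_lt (by fun_prop) (by fun_prop)) (by
      intro τ
      split_ifs with h
      · refine ⟨1 + 1 / τ b, ?_⟩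
        have h1 : 0 < τ b := h.1
        have h2 : τ b * (1 + 1 / τ b) ^ 2 = τ b + 2 + 1 / τ b := by field_simp; ring
        have h3 : 0 < 1 / τ b := by positivity
        rw [Set.mem_ofPred_eq, h2]
        linarith
      · exact ⟨0, by simp⟩)
  refine ⟨t, fun τ => ⟨fun h1 h2 => ?_, fun h => ?_⟩⟩
  · have := ht τ
    rw [if_pos ⟨h1, h2⟩] at this
    exact this
  · have := ht τ
    rw [if_neg h] at this
    exact this

section frames

variable {k : Type} [Field k] [NumberField k] {a b c : kˣ}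

/-- The third parameter can be made positive where the second one is positive. -/
theorem exists_c (hdiv : Division a b c) : ∃ (t : k) (c' : kˣ), (c' : k) = c * (1 - b * t ^ 2) ∧
    ∀ τ : k →+* ℝ, (0 < τ b → 0 < τ c') ∧ (τ b < 0 → (τ c' < 0 ↔ τ c < 0)) := by
  obtain ⟨t, ht⟩ := exists_sign b (fun τ => τ c < 0)
  have h0 : (c : k) * (1 - b * t ^ 2) ≠ 0 := by
    intro h
    have h1 : Oct.norm (⟨0, ⟨1, 0, t, 0⟩⟩ : Oct a b c) = 0 := by
      simp only [Oct.norm, nrd]
      simp only [QuaternionAlgebra.re_zero, QuaternionAlgebra.imI_zero, QuaternionAlgebra.imJ_zero,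
        QuaternionAlgebra.imK_zero]
      linear_combination -h
    have h2 := congrArg (fun z : Oct a b c => z.snd.re) (hdiv _ h1)
    simp at h2
  refine ⟨t, Units.mk0 _ h0, rfl, fun τ => ?_⟩
  have hc : τ c ≠ 0 := (map_ne_zero τ).2 c.ne_zero
  have e : τ ((Units.mk0 _ h0 : kˣ) : k) = τ c * (1 - τ b * (τ t) ^ 2) := by
    rw [Units.val_mk0]
    simp only [map_mul, map_sub, map_one, map_pow]
  rw [e]
  constructor
  · intro hb
    rcases lt_or_gt_of_ne hc with h | h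
    · exact mul_pos_of_neg_of_neg h ((ht τ).1 hb h)
    · exact mul_pos h ((ht τ).2 fun h' => absurd h'.2 (not_lt.2 h.le))
  · intro hb
    have h1 : 0 < 1 - τ b * (τ t) ^ 2 := (ht τ).2 fun h' => absurd h'.1 (not_lt.2 hb.le)
    constructor
    · intro h
      by_contra hcon
      exact absurd h (not_lt.2 (mul_nonneg (not_lt.1 hcon) h1.le))
    · intro h
      exact mul_neg_of_neg_of_pos h h1

/-- The second parameter can be made positive where the third one is positive. -/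
theorem exists_b (hdiv : Division a b c) : ∃ (t : k) (b' : kˣ), (b' : k) = b * (1 - c * t ^ 2) ∧
    ∀ τ : k →+* ℝ, (0 < τ c → 0 < τ b') ∧ (τ c < 0 → (τ b' < 0 ↔ τ b < 0)) := by
  obtain ⟨t, ht⟩ := exists_sign c (fun τ => τ b < 0)
  have h0 : (b : k) * (1 - c * t ^ 2) ≠ 0 := by
    intro h
    have h1 : Oct.norm (⟨⟨0, 0, 1, 0⟩, ⟨0, 0, t, 0⟩⟩ : Oct a b c) = 0 := by
      simp only [Oct.norm, nrd]
      linear_combination -h
    have h2 := congrArg (fun z : Oct a b c => z.fst.imJ) (hdiv _ h1)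
    simp at h2
  refine ⟨t, Units.mk0 _ h0, rfl, fun τ => ?_⟩
  have hb : τ b ≠ 0 := (map_ne_zero τ).2 b.ne_zero
  have e : τ ((Units.mk0 _ h0 : kˣ) : k) = τ b * (1 - τ c * (τ t) ^ 2) := by
    rw [Units.val_mk0]
    simp only [map_mul, map_sub, map_one, map_pow]
  rw [e]
  constructor
  · intro hc
    rcases lt_or_gt_of_ne hb with h | h
    · exact mul_pos_of_neg_of_neg h ((ht τ).1 hc h)
    · exact mul_pos h ((ht τ).2 fun h' => absurd h'.2 (not_lt.2 h.le))
  · intro hc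
    have h1 : 0 < 1 - τ c * (τ t) ^ 2 := (ht τ).2 fun h' => absurd h'.1 (not_lt.2 hc.le)
    constructor
    · intro h
      by_contra hcon
      exact absurd h (not_lt.2 (mul_nonneg (not_lt.1 hcon) h1.le))
    · intro h
      exact mul_neg_of_neg_of_pos h h1

end frames

section bound

variable {k E : Type} [Field k] [Field E] [NumberField E] [Algebra k E]
  {ρ σ : E ≃ₐ[k] E} {lam : Eˣ} {g : Fin 3 → Eˣ} {al s : E} {a b c b' c' : kˣ}

omit [NumberField E] in
theorem nw_sum_le (w : E →+* ℂ) {ι : Type} (s : Finset ι) (x : ι → AlbL E a b c) :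
    nw w al (∑ i ∈ s, x i) ≤ ∑ i ∈ s, nw w al (x i) := by
  classical
  induction s using Finset.induction_on with
  | empty => simp [nw_zero]
  | insert i s hi ih =>
    rw [Finset.sum_insert hi, Finset.sum_insert hi]
    exact (nw_add_le w _ _).trans (by linarith)

/-- Linear maps are bounded. -/
theorem exists_bound (hal : al ^ 2 = algebraMap k E a)
    (Ψ : AlbL E a b c →ₗ[E] AlbL E a b' c') :
    ∃ C : ℝ, 0 < C ∧ ∀ (w : E →+* ℂ) x, nw w al (Ψ x) ≤ C * nw w al x := by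
  classical
  obtain ⟨L, hL⟩ := (co al : AlbL E a b c →ₗ[E] _).exists_leftInverse_of_injective (by
    rw [LinearMap.ker_eq_bot]
    intro x y h
    exact co_inj two_ne_zero hal h)
  have hx : ∀ x : AlbL E a b c, x = ∑ p, co al x p • L (Pi.single p 1) := by
    intro x
    have h1 : L (co al x) = x := DFunLike.congr_fun hL x
    have h2 : co al x = ∑ p, co al x p • (Pi.single p (1 : E)) := by
      funext q
      simp [Finset.sum_apply, Pi.single_apply]
    conv_lhs => rw [← h1, h2, map_sum]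
    simp only [map_smul]
  let C : (E →+* ℂ) → ℝ := fun w => ∑ p, nw w al (Ψ (L (Pi.single p 1)))
  have hC0 : ∀ w, 0 ≤ C w := fun w => Finset.sum_nonneg fun _ _ => nw_nonneg w _
  refine ⟨1 + ∑ w, C w, by
    have := Finset.sum_nonneg fun w (_ : w ∈ Finset.univ) => hC0 w
    linarith, fun w x => ?_⟩
  have h1 : nw w al (Ψ x) ≤ C w * nw w al x := by
    conv_lhs => rw [hx x, map_sum]
    refine (nw_sum_le w _ _).trans ?_
    rw [Finset.sum_mul]
    refine Finset.sum_le_sum fun p _ => ?_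
    rw [map_smul, nw_smul, mul_comm]
    exact mul_le_mul_of_nonneg_left (co_le_nw w x p) (nw_nonneg w _)
  refine h1.trans (mul_le_mul_of_nonneg_right ?_ (nw_nonneg w x))
  have := Finset.single_le_sum (f := C) (fun w _ => hC0 w) (Finset.mem_univ w)
  linarith

end bound

end Vale.Agent.P011.E6X.H637

namespace Vale.Agent.P011.E6X

open Vale.Agent.P011.MPQ Vale.Agent.P011.D4 Vale.Agent.P011.D4.Oct Vale.Agent.P011.E6
open Vale.Agent.P011.E6O
open Vale.Agent.P011.E6X.H637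

variable {k E : Type} [Field k] [NumberField k] [Field E] [NumberField E] [Algebra k E]
  {ρ σ : E ≃ₐ[k] E} {lam : Eˣ} {g : Fin 3 → Eˣ} {al s : E} {a b c b' c' : kˣ}

variable (ρ σ lam g al a b c) in
/-- The elements near `1` belong to the finite residual. -/
def NearRes : Prop := ∃ ε : ℝ, 0 < ε ∧ ∀ h ∈ GO ρ σ lam g a b c, NearS σ g al ε h →
  h ∈ Res ρ σ lam g a b c

/-- The statement does not depend on the coordinates. -/
theorem nearRes_trip (H : E6X.Hyp ρ σ lam g al s a b c) {j l : Oct a b c}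
    (ht : Trip a b' c' gi j l) (hC : ∀ w, SC σ w → Cp g b c w → Cp g b' c' w)
    (hN : NearRes ρ σ lam g al a b' c') : NearRes ρ σ lam g al a b c := by
  obtain ⟨ε, hε, h1⟩ := hN
  let Ψ : AlbL E a b' c' ≃ₗ[E] AlbL E a b c := tripA E ht
  have hΨ : ∀ x, Ψ x = Alb.omapA (emb (oup E gi) (oup E j) (oup E l)) x := tripA_apply ht
  obtain ⟨C, hC0, hC1⟩ := exists_bound H.al2 (Ψ : AlbL E a b' c' →ₗ[E] AlbL E a b c)
  obtain ⟨C', hC0', hC1'⟩ := exists_bound H.al2 (Ψ.symm : AlbL E a b c →ₗ[E] AlbL E a b' c')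
  refine ⟨ε / (C' * C), by positivity, fun h hh hn => ?_⟩
  let φ : AlbL E a b' c' ≃ₗ[E] AlbL E a b' c' := (Ψ.trans h).trans Ψ.symm
  have hφ : (Ψ.symm.trans φ).trans Ψ = h := by
    apply LinearEquiv.ext
    intro x
    change Ψ (Ψ.symm (h (Ψ (Ψ.symm x)))) = h x
    rw [LinearEquiv.apply_symm_apply, LinearEquiv.apply_symm_apply]
  obtain ⟨e1, e2⟩ := trip_Res H ht hΨ (φ := φ)
  rw [hφ] at e1 e2
  refine e2.1 (h1 φ (e1.2 hh) fun w hw hcw x => ?_)
  have h2 := hn w hw (fun h' => hcw (hC w hw h')) (Ψ x)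
  have h3 : φ x - x = Ψ.symm (h (Ψ x) - Ψ x) := by
    rw [map_sub, LinearEquiv.symm_apply_apply]
    rfl
  rw [h3]
  have h4 := hC1' w (h (Ψ x) - Ψ x)
  have h5 := hC1 w x
  calc nw w al (Ψ.symm (h (Ψ x) - Ψ x)) ≤ C' * nw w al (h (Ψ x) - Ψ x) := h4
    _ ≤ C' * (ε / (C' * C) * nw w al (Ψ x)) := by gcongr
    _ ≤ C' * (ε / (C' * C) * (C * nw w al x)) := by
      refine mul_le_mul_of_nonneg_left (mul_le_mul_of_nonneg_left h5 (by positivity)) hC0'.le
    _ = ε * nw w al x := by field_simp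

/-- The sign hypothesis can be removed. -/
theorem nearRes_of (H : E6X.Hyp ρ σ lam g al s a b c)
    (h : ∀ b' c' : kˣ, E6X.Hyp ρ σ lam g al s a b' c' → Sg σ b' c' →
      NearRes ρ σ lam g al a b' c') : NearRes ρ σ lam g al a b c := by
  obtain ⟨t, c₁, hc₁, h1⟩ := exists_c H.hdiv
  have ht₁ := trip1 (a := a) t hc₁
  have H₁ := H.trip ht₁
  obtain ⟨t', b₁, hb₁, h2⟩ := exists_b H₁.hdiv
  have ht₂ := trip2 (a := a) t' hb₁
  have H₂ := H₁.trip ht₂
  have hv : ∀ (w : E →+* ℂ) (τ : k →+* ℝ), (∀ t : k, w (algebraMap k E t) = (τ t : ℂ)) →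
      ∀ t : k, vk w t = τ t := by
    intro w τ hτ t
    rw [vk, hτ, Complex.ofReal_re]
  refine nearRes_trip H ht₁ (fun w hw hcp => ?_) (nearRes_trip H₁ ht₂ (fun w hw hcp => ?_)
    (h b₁ c₁ H₂ fun w hw => ?_))
  · obtain ⟨τ, hτ, -⟩ := H.exists_tau hw
    obtain ⟨hb, hc, hg⟩ := hcp
    refine ⟨hb, ?_, hg⟩
    rw [hv w τ hτ] at hb hc ⊢
    exact ((h1 τ).2 hb).2 hc
  · obtain ⟨τ, hτ, -⟩ := H.exists_tau hw
    obtain ⟨hb, hc, hg⟩ := hcp
    refine ⟨?_, hc, hg⟩
    rw [hv w τ hτ] at hb hc ⊢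
    exact ((h2 τ).2 hc).2 hb
  · obtain ⟨τ, hτ, -⟩ := H.exists_tau hw
    rw [hv w τ hτ, hv w τ hτ]
    have hc₁0 : τ c₁ ≠ 0 := (map_ne_zero τ).2 c₁.ne_zero
    have hb0 : τ b ≠ 0 := (map_ne_zero τ).2 b.ne_zero
    rcases lt_or_gt_of_ne hc₁0 with hc | hc
    · refine Or.inl ⟨?_, hc⟩
      refine ((h2 τ).2 hc).2 ?_
      rcases lt_or_gt_of_ne hb0 with hb | hb
      · exact hb
      · exact absurd hc (not_lt.2 ((h1 τ).1 hb).le)
    · exact Or.inr ⟨(h2 τ).1 hc, hc⟩

end Vale.Agent.P011.E6X
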