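import Mathlib.Analysis.Normed.Module.FiniteDimension
import Mathlib.Analysis.Complex.Basic
import Mathlib.LinearAlgebra.Matrix.ToLin
import Mathlib.LinearAlgebra.Matrix.NonsingularInverse
import Mathlib.LinearAlgebra.Matrix.Rank
import Mathlib.Data.Matrix.ColumnRowPartitioned
import Mathlib.LinearAlgebra.FiniteDimensional.Basic

/-!
Block E6X: solutions of linear systems depend continuously on the coefficients.
-/

open Matrix

namespace Vale.Agent.P011.E6X.H637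

variable {m n p : Type} [Fintype m] [Fintype n] [Fintype p]

/-- The bound of a matrix with small entries. -/
theorem mulVec_small {D : Matrix m n ℂ} {ε : ℝ} (hε : 0 ≤ ε) (hD : ∀ i j, ‖D i j‖ ≤ ε)
    (y : n → ℂ) : ‖D *ᵥ y‖ ≤ (Fintype.card n * ε) * ‖y‖ := by
  rw [pi_norm_le_iff_of_nonneg (by positivity)]
  intro i
  calc ‖(D *ᵥ y) i‖ ≤ ∑ j, ‖D i j * y j‖ := norm_sum_le _ _
    _ ≤ ∑ _j : n, ε * ‖y‖ := Finset.sum_le_sum fun j _ => by
        rw [norm_mul]
        exact mul_le_mul (hD i j) (norm_le_pi_norm y j) (norm_nonneg _) hε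
    _ = (Fintype.card n * ε) * ‖y‖ := by
        rw [Finset.sum_const, Finset.card_univ, nsmul_eq_mul, mul_assoc]

/-- A linear system with at most one solution is bounded below. -/
theorem exists_lower (A : Matrix m n ℂ) (P : Matrix p n ℂ)
    (h : ∀ y, A *ᵥ y = 0 → P *ᵥ y = 0 → y = 0) :
    ∃ c : ℝ, 0 < c ∧ ∀ y, P *ᵥ y = 0 → c * ‖y‖ ≤ ‖A *ᵥ y‖ := by
  let T : (n → ℂ) →ₗ[ℂ] (m → ℂ) × (p → ℂ) := A.mulVecLin.prod P.mulVecLin
  have hT : LinearMap.ker T = ⊥ := by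
    rw [LinearMap.ker_eq_bot']
    intro y hy
    exact h y (congrArg Prod.fst hy) (congrArg Prod.snd hy)
  obtain ⟨K, hK, hK'⟩ := T.exists_antilipschitzWith hT
  have hK0 : (0 : ℝ) < K := hK
  refine ⟨(K : ℝ)⁻¹, inv_pos.mpr hK0, fun y hy => ?_⟩
  have h1 := hK'.le_mul_dist y 0
  rw [dist_zero_right, map_zero, dist_zero_right] at h1
  have h2 : ‖T y‖ = ‖A *ᵥ y‖ := by
    change ‖(A *ᵥ y, P *ᵥ y)‖ = _
    rw [hy, Prod.norm_def, norm_zero]
    exact max_eq_left (norm_nonneg _)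
  rw [h2] at h1
  rw [inv_mul_le_iff₀ hK0]
  exact h1

/-- Solutions of linear systems depend continuously on the coefficients. -/
theorem near_ker (A₀ : Matrix m n ℂ) (P : Matrix p n ℂ)
    (h : ∀ y, A₀ *ᵥ y = 0 → P *ᵥ y = 0 → y = 0) (y₀ : p → n → ℂ)
    (h0 : ∀ i, A₀ *ᵥ y₀ i = 0) {δ : ℝ} (hδ : 0 < δ) :
    ∃ ε : ℝ, 0 < ε ∧ ∀ A : Matrix m n ℂ, (∀ i j, ‖A i j - A₀ i j‖ < ε) →
      (∀ y, A *ᵥ y = 0 → P *ᵥ y = 0 → y = 0) ∧
        ∀ i y, A *ᵥ y = 0 → P *ᵥ y = P *ᵥ y₀ i → ‖y - y₀ i‖ < δ := by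
  obtain ⟨c, hc, hlow⟩ := exists_lower A₀ P h
  obtain ⟨M, hM0, hM⟩ : ∃ M : ℝ, 0 < M ∧ ∀ i, ‖y₀ i‖ ≤ M :=
    ⟨‖y₀‖ + 1, by positivity, fun i => (norm_le_pi_norm y₀ i).trans (by linarith)⟩
  obtain ⟨η, hη0, hη1, hη2⟩ : ∃ η : ℝ, 0 < η ∧ η ≤ c / 2 ∧ η * M < c / 2 * δ := by
    refine ⟨min (c / 2) (c / 4 * δ / M), by positivity, min_le_left _ _, ?_⟩
    calc min (c / 2) (c / 4 * δ / M) * M ≤ (c / 4 * δ / M) * M := by gcongr; exact min_le_right _ _
      _ = c / 4 * δ := by field_simp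
      _ < c / 2 * δ := by nlinarith [mul_pos hc hδ]
  have hN : (0 : ℝ) < Fintype.card n + 1 := by positivity
  refine ⟨η / (Fintype.card n + 1), by positivity, fun A hA => ?_⟩
  have hsm : ∀ y, ‖(A₀ - A) *ᵥ y‖ ≤ η * ‖y‖ := by
    intro y
    refine (mulVec_small (ε := η / (Fintype.card n + 1)) (by positivity) (fun i j => ?_) y).trans ?_
    · rw [Matrix.sub_apply, norm_sub_rev]
      exact (hA i j).le
    · refine mul_le_mul_of_nonneg_right ?_ (norm_nonneg _)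
      rw [← mul_div_assoc, div_le_iff₀ hN]
      nlinarith
  have hA0 : ∀ y, A *ᵥ y = 0 → A₀ *ᵥ y = (A₀ - A) *ᵥ y := by
    intro y hy
    rw [Matrix.sub_mulVec, hy, sub_zero]
  constructor
  · intro y hy hP
    have h1 := hlow y hP
    rw [hA0 y hy] at h1
    have h2 := h1.trans (hsm y)
    have h3 : ‖y‖ = 0 := by nlinarith [norm_nonneg y]
    exact norm_eq_zero.mp h3
  · intro i y hy hP
    have h1 := hlow (y - y₀ i) (by rw [Matrix.mulVec_sub, hP, sub_self])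
    rw [Matrix.mulVec_sub, h0, sub_zero, hA0 y hy] at h1
    have h2 := h1.trans (hsm y)
    have h3 : ‖y‖ ≤ ‖y - y₀ i‖ + M := by
      calc ‖y‖ = ‖(y - y₀ i) + y₀ i‖ := by rw [sub_add_cancel]
        _ ≤ ‖y - y₀ i‖ + ‖y₀ i‖ := norm_add_le _ _
        _ ≤ ‖y - y₀ i‖ + M := by gcongr; exact hM i
    have h4 : c * ‖y - y₀ i‖ ≤ c / 2 * ‖y - y₀ i‖ + η * M := by
      calc c * ‖y - y₀ i‖ ≤ η * ‖y‖ := h2
        _ ≤ η * (‖y - y₀ i‖ + M) := by gcongr
        _ = η * ‖y - y₀ i‖ + η * M := by ring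
        _ ≤ c / 2 * ‖y - y₀ i‖ + η * M := by gcongr
    nlinarith

section field

variable {E : Type} [Field E]

/-- An injective matrix has a left inverse. -/
theorem exists_left_inv [DecidableEq m] [DecidableEq n] {M : Matrix m n E}
    (h : ∀ y, M *ᵥ y = 0 → y = 0) : ∃ L : Matrix n m E, L * M = 1 := by
  have h1 : LinearMap.ker M.mulVecLin = ⊥ := by
    rw [LinearMap.ker_eq_bot']
    exact h
  obtain ⟨g, hg⟩ := M.mulVecLin.exists_leftInverse_of_injective h1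
  refine ⟨LinearMap.toMatrix' g, ?_⟩
  have h2 : LinearMap.toMatrix' (g ∘ₗ M.mulVecLin) = 1 := by
    rw [hg, LinearMap.toMatrix'_id]
  rw [LinearMap.toMatrix'_comp] at h2
  rw [← h2]
  congr 1
  rw [← Matrix.toLin'_apply', LinearMap.toMatrix'_toLin']

/-- Injectivity is preserved by a map of fields. -/
theorem inj_map [DecidableEq m] [DecidableEq n] [DecidableEq p] (w : E →+* ℂ) {A : Matrix m n E}
    {P : Matrix p n E}
    (h : ∀ y, A *ᵥ y = 0 → P *ᵥ y = 0 → y = 0) (y : n → ℂ) (h1 : A.map w *ᵥ y = 0)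
    (h2 : P.map w *ᵥ y = 0) : y = 0 := by
  obtain ⟨L, hL⟩ := exists_left_inv (M := Matrix.fromRows A P) (by
    intro y hy
    rw [Matrix.fromRows_mulVec] at hy
    refine h y ?_ ?_
    · funext i
      exact congrFun hy (Sum.inl i)
    · funext i
      exact congrFun hy (Sum.inr i))
  have h3 : L.map w * (Matrix.fromRows A P).map w = 1 := by
    rw [← Matrix.map_mul, hL, Matrix.map_one _ (map_zero w) (map_one w)]
  have h4 : (Matrix.fromRows A P).map w *ᵥ y = 0 := by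
    have e : (Matrix.fromRows A P).map w = Matrix.fromRows (A.map w) (P.map w) := by
      ext i j
      rcases i with i | i <;> rfl
    rw [e, Matrix.fromRows_mulVec, h1, h2]
    funext i
    rcases i with i | i <;> rfl
  rw [← Matrix.one_mulVec y, ← h3, ← Matrix.mulVec_mulVec, h4, Matrix.mulVec_zero]

omit [Fintype m] in
theorem map_mulVec' (w : E →+* ℂ) (A : Matrix m n E) (y : n → E) :
    A.map w *ᵥ (fun j => w (y j)) = fun i => w ((A *ᵥ y) i) := by
  funext i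
  simp only [Matrix.mulVec, dotProduct, Matrix.map_apply, map_sum, map_mul]

/-- Solutions of linear systems over a number field depend continuously on the coefficients, at
finitely many places. -/
theorem near_kerE [DecidableEq m] [DecidableEq n] [DecidableEq p] (R : Finset (E →+* ℂ))
    (hR : R.Nonempty)
    (A₀ : Matrix m n E) (P : Matrix p n E) (h : ∀ y, A₀ *ᵥ y = 0 → P *ᵥ y = 0 → y = 0)
    (y₀ : p → n → E) (h0 : ∀ i, A₀ *ᵥ y₀ i = 0) {δ : ℝ} (hδ : 0 < δ) :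
    ∃ ε : ℝ, 0 < ε ∧ ∀ A : Matrix m n E, (∀ w ∈ R, ∀ i j, ‖w (A i j - A₀ i j)‖ < ε) →
      (∀ y, A *ᵥ y = 0 → P *ᵥ y = 0 → y = 0) ∧
        ∀ i y, A *ᵥ y = 0 → P *ᵥ y = P *ᵥ y₀ i → ∀ w ∈ R, ∀ j, ‖w (y j - y₀ i j)‖ < δ := by
  have key : ∀ w : E →+* ℂ, ∃ ε : ℝ, 0 < ε ∧ ∀ A : Matrix m n E,
      (∀ i j, ‖w (A i j - A₀ i j)‖ < ε) →
      (∀ y, A *ᵥ y = 0 → P *ᵥ y = 0 → y = 0) ∧
        ∀ i y, A *ᵥ y = 0 → P *ᵥ y = P *ᵥ y₀ i → ∀ j, ‖w (y j - y₀ i j)‖ < δ := by
    intro w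
    obtain ⟨ε, hε, hA⟩ := near_ker (A₀.map w) (P.map w) (inj_map w h)
      (fun i j => w (y₀ i j)) (fun i => by
        rw [map_mulVec', h0]
        funext j
        exact map_zero w) hδ
    refine ⟨ε, hε, fun A hA' => ?_⟩
    obtain ⟨h1, h2⟩ := hA (A.map w) (fun i j => by
      rw [Matrix.map_apply, Matrix.map_apply, ← map_sub]
      exact hA' i j)
    constructor
    · intro y hy hP
      have h3 := h1 (fun j => w (y j)) (by
        rw [map_mulVec', hy]
        funext j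
        exact map_zero w) (by
        rw [map_mulVec', hP]
        funext j
        exact map_zero w)
      funext j
      exact (map_eq_zero w).mp (congrFun h3 j)
    · intro i y hy hP j
      have h3 := h2 i (fun j => w (y j)) (by
        rw [map_mulVec', hy]
        funext j
        exact map_zero w) (by rw [map_mulVec', map_mulVec', hP])
      have h4 := (norm_le_pi_norm _ j).trans_lt h3
      rw [Pi.sub_apply, ← map_sub] at h4
      exact h4
  choose ε hε hA using key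
  obtain ⟨w₀, hw₀⟩ := hR
  refine ⟨R.inf' ⟨w₀, hw₀⟩ ε, (Finset.lt_inf'_iff _).mpr fun w _ => hε w, fun A hA' => ?_⟩
  have h1 : ∀ w ∈ R, ∀ i j, ‖w (A i j - A₀ i j)‖ < ε w := fun w hw i j =>
    (hA' w hw i j).trans_le (Finset.inf'_le _ hw)
  exact ⟨(hA w₀ A (h1 w₀ hw₀)).1, fun i y hy hP w hw => (hA w A (h1 w hw)).2 i y hy hP⟩

omit [Fintype m] in
/-- The solutions with given pivots exist if the dimension is right. -/
theorem exists_pivot [DecidableEq n] {A : Matrix m n E} {P : Matrix p n E}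
    (h : ∀ y, A *ᵥ y = 0 → P *ᵥ y = 0 → y = 0)
    (hd : Module.finrank E (LinearMap.ker A.mulVecLin) = Fintype.card p) (z : p → E) :
    ∃ y, A *ᵥ y = 0 ∧ P *ᵥ y = z := by
  let f : LinearMap.ker A.mulVecLin →ₗ[E] (p → E) := P.mulVecLin ∘ₗ Submodule.subtype _
  have hf : Function.Injective f := by
    rw [← LinearMap.ker_eq_bot, LinearMap.ker_eq_bot']
    rintro ⟨y, hy⟩ hy'
    exact Subtype.ext (h y hy hy')
  have hf' : Function.Surjective f := by
    refine (LinearMap.injective_iff_surjective_of_finrank_eq_finrank ?_).mp hf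
    rw [hd, Module.finrank_fintype_fun_eq_card]
  obtain ⟨⟨y, hy⟩, hy'⟩ := hf' z
  exact ⟨y, hy, hy'⟩

end field

end Vale.Agent.P011.E6X.H637
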