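import Vale.Agent.P011.E6X.Orth
import Vale.Agent.P011.E6X.H637.Near

/-!
The hermitian form on the two lines, in coordinates, and the points of the lines which are
orthogonal to a given point near a standard point.
-/

open NumberField

namespace Vale.Agent.P011.E6X.H637

open Vale.Agent.P011.E6O

open Vale.Agent.P011.MPQ Vale.Agent.P011.D4 Vale.Agent.P011.D4.Oct Vale.Agent.P011.E6 Alb
open Vale.Agent.P011.E6X.H493

open scoped ComplexConjugate

variable {k E : Type} [Field k] [Field E] [Algebra k E]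
  {ρ σ : E ≃ₐ[k] E} {lam : Eˣ} {g : Fin 3 → Eˣ} {al s : E} {a b c : kˣ}

/-- The second halves of the three octonions. -/
def sn (y : AlbL E a b c) : Fin 3 → Qt (up E a) (up E b) := ![y.x1.snd, y.x2.snd, y.x3.snd]

/-- The weights of the three octonions. -/
def wts (g : Fin 3 → Eˣ) : Fin 3 → E := ![(g 1 : E) * g 2, (g 2 : E) * g 0, (g 0 : E) * g 1]

theorem wts_ne (g : Fin 3 → Eˣ) (i : Fin 3) : wts g i ≠ 0 := by
  fin_cases i
  · exact mul_ne_zero (g 1).ne_zero (g 2).ne_zero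
  · exact mul_ne_zero (g 2).ne_zero (g 0).ne_zero
  · exact mul_ne_zero (g 0).ne_zero (g 1).ne_zero

theorem cb_qmap (hσ : σ al = -al) (q : Qt (up E a) (up E b)) :
    cb al (qmap σ q) = σ (ca al q) := by
  simp only [ca, cb, re_qmap, imI_qmap, map_add, map_mul, hσ]
  ring

theorem cg_qmap (hσ : σ al = -al) (q : Qt (up E a) (up E b)) :
    cg al (qmap σ q) = σ (cd al q) := by
  simp only [cg, cd, imJ_qmap, imK_qmap, map_sub, map_mul, hσ]
  ring

theorem cd_qmap (hσ : σ al = -al) (q : Qt (up E a) (up E b)) :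
    cd al (qmap σ q) = σ (cg al q) := by
  simp only [cg, cd, imJ_qmap, imK_qmap, map_add, map_mul, hσ]
  ring

theorem bil_snd (hal : al ^ 2 = algebraMap k E a) (q : Qt (up E a) (up E b))
    (z : OctL E a b c) :
    bil (⟨0, q⟩ : OctL E a b c) z = -((up E c : Eˣ) : E) *
      (ca al q * cb al z.snd + cb al q * ca al z.snd -
        ((up E b : Eˣ) : E) * (cg al q * cd al z.snd + cd al q * cg al z.snd)) := by
  have hal' : al ^ 2 = ((up E a : Eˣ) : E) := hal
  simp only [bil, Oct.norm, fst_add, snd_add, nrd_co hal', ca_add, cb_add, cg_add, cd_add,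
    ca_zero, cb_zero, cg_zero, cd_zero]
  ring

section char0

variable [CharZero E]

/-- The hermitian form on the opposite line. -/
theorem her_em (hal : al ^ 2 = algebraMap k E a) (hσ : σ al = -al) {y : AlbL E a b c}
    (hy : y ∈ Iln c (E6O.em al)) (x : AlbL E a b c) :
    her σ g y x = -((up E c : Eˣ) : E) * ∑ i, wts g i * (cb al (sn y i) * σ (cb al (sn x i)) -
      ((up E b : Eˣ) : E) * (cd al (sn y i) * σ (cd al (sn x i)))) := by
  obtain ⟨⟨h1, h2, h3⟩, ⟨h4, h5, h6⟩, ⟨h7, h8, h9⟩, h10, h11, h12⟩ := (mem_Iln_em hal).1 hy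
  have e1 : y.x1 = ⟨0, y.x1.snd⟩ := Oct.ext h4 rfl
  have e2 : y.x2 = ⟨0, y.x2.snd⟩ := Oct.ext h5 rfl
  have e3 : y.x3 = ⟨0, y.x3.snd⟩ := Oct.ext h6 rfl
  rw [her, tf]
  simp only [wt, amap, h1, h2, h3]
  rw [e1, e2, e3]
  simp only [bil_smul_left, bil_snd hal, omap, ca_qmap hσ, cb_qmap hσ, cg_qmap hσ, cd_qmap hσ,
    h7, h8, h9, h10, h11, h12, Fin.sum_univ_three, wts, sn, Matrix.cons_val_zero,
    Matrix.cons_val_one, Matrix.cons_val_two, Matrix.head_cons, Matrix.tail_cons]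
  ring

/-- The hermitian form on the line. -/
theorem her_ep (hal : al ^ 2 = algebraMap k E a) (hσ : σ al = -al) {y : AlbL E a b c}
    (hy : y ∈ Iln c (ep al)) (x : AlbL E a b c) :
    her σ g y x = -((up E c : Eˣ) : E) * ∑ i, wts g i * (ca al (sn y i) * σ (ca al (sn x i)) -
      ((up E b : Eˣ) : E) * (cg al (sn y i) * σ (cg al (sn x i)))) := by
  obtain ⟨⟨h1, h2, h3⟩, ⟨h4, h5, h6⟩, ⟨h7, h8, h9⟩, h10, h11, h12⟩ := (mem_Iln_ep hal).1 hy
  have e1 : y.x1 = ⟨0, y.x1.snd⟩ := Oct.ext h4 rfl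
  have e2 : y.x2 = ⟨0, y.x2.snd⟩ := Oct.ext h5 rfl
  have e3 : y.x3 = ⟨0, y.x3.snd⟩ := Oct.ext h6 rfl
  rw [her, tf]
  simp only [wt, amap, h1, h2, h3]
  rw [e1, e2, e3]
  simp only [bil_smul_left, bil_snd hal, omap, ca_qmap hσ, cb_qmap hσ, cg_qmap hσ, cd_qmap hσ,
    h7, h8, h9, h10, h11, h12, Fin.sum_univ_three, wts, sn, Matrix.cons_val_zero,
    Matrix.cons_val_one, Matrix.cons_val_two, Matrix.head_cons, Matrix.tail_cons]
  ring

end char0

section near

variable [NumberField E]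

/-- The orthogonal of a space near the first coordinate space is near the second coordinate
space. -/
theorem near_orth (R : Finset (E →+* ℂ)) (hR : R.Nonempty)
    (hRσ : ∀ w ∈ R, ∀ x, w (σ x) = conj (w x)) {W : Fin 3 → E} (hW : ∀ i, W i ≠ 0) (b : E)
    {δ : ℝ} (hδ : 0 < δ) :
    ∃ ε : ℝ, 0 < ε ∧ ∀ B D : Fin 3 → Fin 3 → E,
      (∀ w ∈ R, ∀ i j, ‖w (B i j - if i = j then 1 else 0)‖ < ε) →
      (∀ w ∈ R, ∀ i j, ‖w (D i j)‖ < ε) →
      (∀ β : Fin 3 → E, (∀ j, ∑ i, W i * (β i * σ (B j i)) = 0) → β = 0) ∧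
      ∀ β d : Fin 3 → E, (∀ j, ∑ i, W i * (β i * σ (B j i) - b * (d i * σ (D j i))) = 0) →
        ∀ l, d = Pi.single l 1 → ∀ w ∈ R, ∀ j, ‖w (β j)‖ < δ := by
  classical
  let A : (Fin 3 → Fin 3 → E) → (Fin 3 → Fin 3 → E) → Matrix (Fin 3) (Fin 3 ⊕ Fin 3) E :=
    fun B D => Matrix.fromCols (Matrix.of fun j i => W i * σ (B j i))
      (Matrix.of fun j i => -(b * W i * σ (D j i)))
  let P : Matrix (Fin 3) (Fin 3 ⊕ Fin 3) E := Matrix.fromCols 0 1
  have hA : ∀ B D (β d : Fin 3 → E) (j : Fin 3), (A B D).mulVec (Sum.elim β d) j =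
      ∑ i, W i * (β i * σ (B j i) - b * (d i * σ (D j i))) := by
    intro B D β d j
    simp only [A, Matrix.mulVec, dotProduct, Fintype.sum_sum_type, Matrix.fromCols_apply_inl,
      Matrix.fromCols_apply_inr, Matrix.of_apply, Sum.elim_inl, Sum.elim_inr]
    rw [← Finset.sum_add_distrib]
    exact Finset.sum_congr rfl fun i _ => by ring
  have hP : ∀ β d : Fin 3 → E, P.mulVec (Sum.elim β d) = d := by
    intro β d
    simp only [P, Matrix.fromCols_mulVec_sumElim, Matrix.zero_mulVec, Matrix.one_mulVec, zero_add]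
  have hs : ∀ y : Fin 3 ⊕ Fin 3 → E, y = Sum.elim (fun i => y (Sum.inl i)) fun i => y (Sum.inr i) :=
    fun y => by funext i; cases i <;> rfl
  let B₀ : Fin 3 → Fin 3 → E := fun i j => if i = j then 1 else 0
  have hB₀ : ∀ j i, σ (B₀ j i) = if j = i then 1 else 0 := by
    intro j i
    simp only [B₀]
    split_ifs
    · exact map_one σ
    · exact map_zero σ
  -- the constant
  obtain ⟨M, hM0, hM⟩ : ∃ M : ℝ, 0 < M ∧ ∀ w ∈ R, ∀ i, ‖w (W i)‖ ≤ M ∧ ‖w (b * W i)‖ ≤ M := by
    refine ⟨1 + ∑ w ∈ R, ∑ i, (‖w (W i)‖ + ‖w (b * W i)‖), by positivity, fun w hw i => ?_⟩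
    have h1 : ‖w (W i)‖ + ‖w (b * W i)‖ ≤ ∑ w ∈ R, ∑ i, (‖w (W i)‖ + ‖w (b * W i)‖) :=
      (Finset.single_le_sum (f := fun i => ‖w (W i)‖ + ‖w (b * W i)‖) (fun _ _ => by positivity)
        (Finset.mem_univ i)).trans
        (Finset.single_le_sum (f := fun w : E →+* ℂ => ∑ i, (‖w (W i)‖ + ‖w (b * W i)‖))
          (fun _ _ => by positivity) hw)
    constructor
    · linarith [norm_nonneg (w (b * W i))]
    · linarith [norm_nonneg (w (W i))]
  obtain ⟨ε, hε, h⟩ := near_kerE R hR (A B₀ 0) P (by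
    intro y h1 h2
    rw [hs y] at h1 h2 ⊢
    rw [hP] at h2
    have h3 : ∀ j, y (Sum.inl j) = 0 := by
      intro j
      have h4 := congrFun h1 j
      rw [hA] at h4
      simp only [hB₀, Pi.zero_apply, map_zero, mul_zero, sub_zero, mul_ite, mul_one,
        Finset.sum_ite_eq, Finset.mem_univ, if_true] at h4
      exact (mul_eq_zero.1 h4).resolve_left (hW j)
    funext i
    cases i with
    | inl i => exact h3 i
    | inr i => exact congrFun h2 i)
    (fun l => Sum.elim 0 (Pi.single l 1)) (by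
    intro l
    funext j
    rw [hA]
    simp) hδ
  refine ⟨ε / M, by positivity, fun B D hB hD => ?_⟩
  obtain ⟨h1, h2⟩ := h (A B D) (by
    intro w hw i j
    have hm := hM w hw
    cases j with
    | inl j =>
      have e : A B D i (Sum.inl j) - A B₀ 0 i (Sum.inl j) = W j * σ (B i j - B₀ i j) := by
        simp only [A, Matrix.fromCols_apply_inl, Matrix.of_apply, map_sub]; ring
      rw [e, map_mul, hRσ w hw, _root_.norm_mul, RCLike.norm_conj]
      have h3 := hB w hw i j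
      calc ‖w (W j)‖ * ‖w (B i j - B₀ i j)‖ ≤ M * ‖w (B i j - B₀ i j)‖ := by
            gcongr; exact (hm j).1
        _ < M * (ε / M) := by gcongr
        _ = ε := by field_simp
    | inr j =>
      have e : A B D i (Sum.inr j) - A B₀ 0 i (Sum.inr j) = -(b * W j) * σ (D i j) := by
        simp only [A, Matrix.fromCols_apply_inr, Matrix.of_apply, Pi.zero_apply, map_zero]; ring
      rw [e, map_mul, hRσ w hw, _root_.norm_mul, RCLike.norm_conj, map_neg, _root_.norm_neg]
      have h3 := hD w hw i j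
      calc ‖w (b * W j)‖ * ‖w (D i j)‖ ≤ M * ‖w (D i j)‖ := by
            gcongr; exact (hm j).2
        _ < M * (ε / M) := by gcongr
        _ = ε := by field_simp)
  refine ⟨fun β hβ => ?_, fun β d hd l hl w hw j => ?_⟩
  · have h3 := h1 (Sum.elim β 0) (by
      funext j
      rw [hA]
      simp only [Pi.zero_apply, zero_mul, mul_zero, sub_zero]
      exact hβ j) (by rw [hP])
    funext i
    exact congrFun h3 (Sum.inl i)
  · have h3 := h2 l (Sum.elim β d) (by
      funext j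
      rw [hA]
      exact hd j) (by rw [hP, hP, hl]) w hw (Sum.inl j)
    simpa using h3

end near

end Vale.Agent.P011.E6X.H637
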