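import Vale.Agent.P011.E6X.H637.XU

/-!
Block E6X, row X4b: the opposite space of a point is a point.
-/

open NumberField Matrix

namespace Vale.Agent.P011.E6X.H637

open Vale.Agent.P011.MPQ Vale.Agent.P011.D4 Vale.Agent.P011.D4.Oct Vale.Agent.P011.E6
open Vale.Agent.P011.E6O
open Vale.Agent.P011.E6X.H493 (mem_Iln_ep mem_Iln_em co_ep her_smul_left her_add_left her_ph hsem
  hcyc ph_add ph_smul)

variable {k E : Type} [Field k] [NumberField k] [Field E] [NumberField E] [Algebra k E]
  {ρ σ : E ≃ₐ[k] E} {lam : Eˣ} {g : Fin 3 → Eˣ} {al s : E} {a b c : kˣ}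

omit [NumberField k] in
theorem adj_of_line' (hal : al ^ 2 = algebraMap k E a) {y : AlbL E a b c}
    (hy : y ∈ Iln c (ep al)) : Alb.adj y = 0 := by
  have hal' : al ^ 2 = ((up E a : Eˣ) : E) := hal
  obtain ⟨e1, e2, e3, e4⟩ := co_ep (b := b) hal
  obtain ⟨q, rfl⟩ := hy
  have h0 : nrd (0 : Qt (up E a) (up E b)) = 0 := by simp [nrd]
  have h1 : nrd (ep al : Qt (up E a) (up E b)) = 0 := by
    rw [nrd_co hal', e2, e3]; ring
  have h2 : ∀ p q : Qt (up E a) (up E b), star (ep al * p) * (ep al * q) = 0 := by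
    intro p q
    apply ext_co two_ne_zero hal' <;>
      simp only [ca_mul hal', cb_mul hal', cg_mul hal', cd_mul hal', e1, e2, e3, e4, ca_star,
        cb_star, cg_star, cd_star, ca_zero, cb_zero, cg_zero, cd_zero] <;> ring
  apply Alb.ext
  · simp only [Alb.adj, Oct.norm, nrd_mul, h0, h1, Alb.d1_zero]; ring
  · simp only [Alb.adj, Oct.norm, nrd_mul, h0, h1, Alb.d2_zero]; ring
  · simp only [Alb.adj, Oct.norm, nrd_mul, h0, h1, Alb.d3_zero]; ring
  all_goals
    apply Oct.ext
    · simp only [Alb.adj, fst_sub, fst_star, fst_mul, fst_smul, h2, Alb.x1_zero, Alb.x2_zero,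
        Alb.x3_zero, fst_zero, mul_zero, smul_zero, add_zero, sub_zero, star_zero]
    · simp only [Alb.adj, snd_star, snd_mul, Alb.x1_zero, Alb.x2_zero,
        Alb.x3_zero, snd_zero, mul_zero, star_zero, zero_smul, add_zero, sub_zero, neg_zero]

omit [NumberField k] in
/-- The line is stable. -/
theorem ph_mem_line' (H : E6X.Hyp ρ σ lam g al s a b c) {y : AlbL E a b c}
    (hy : y ∈ Iln c (ep al)) : ph ρ lam y ∈ Iln c (ep al) := by
  have hq : ∀ q : Qt (up E a) (up E b), cb al (qmap ρ q) = ρ (cb al q) := fun q => by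
    simp only [cb, re_qmap, imI_qmap, map_sub, map_mul, H.ρal]
  have hq' : ∀ q : Qt (up E a) (up E b), cd al (qmap ρ q) = ρ (cd al q) := fun q => by
    simp only [cd, imJ_qmap, imK_qmap, map_sub, map_mul, H.ρal]
  rw [mem_Iln_ep H.al2] at hy ⊢
  obtain ⟨⟨h1, h2, h3⟩, ⟨h4, h5, h6⟩, ⟨h7, h8, h9⟩, h10, h11, h12⟩ := hy
  simp only [ph, omap, h1, h2, h3, h4, h5, h6, fst_smul, snd_smul, qmap_zero, smul_zero, map_zero,
    mul_zero, cb_smul, cd_smul, hq, hq', h7, h8, h9, h10, h11, h12, and_self]

omit [NumberField k] [NumberField E] in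
theorem jq_add (p q : Qt (up E a) (up E b)) : jq (p + q) = jq p + jq q := mul_add _ _ _

omit [NumberField k] [NumberField E] in
theorem jq_smul (t : E) (q : Qt (up E a) (up E b)) : jq (t • q) = t • jq q := by
  rw [jq, jq, mul_smul_comm]

omit [NumberField k] [NumberField E] in
theorem jl_ph (x : AlbL E a b c) : jl (ph ρ lam x) = ph ρ lam (jl x) := by
  have hj : ∀ q : Qt (up E a) (up E b), qmap ρ (jq q) = jq (qmap ρ q) := by
    intro q
    rw [jq, jq, qmap_mul]
    congr 1
    apply QuaternionAlgebra.ext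
    · exact map_zero ρ
    · exact map_zero ρ
    · exact map_one ρ
    · exact map_zero ρ
  apply Alb.ext
  · simp [ph, jl]
  · simp [ph, jl]
  · simp [ph, jl]
  all_goals
    apply Oct.ext
    · simp [ph, jl, omap, qmap_zero]
    · simp [ph, jl, omap, hj, jq_smul]

omit [NumberField k] [NumberField E] in
theorem jl_add (x y : AlbL E a b c) : jl (x + y) = jl x + jl y := by
  apply Alb.ext <;> simp [jl]
  all_goals
    apply Oct.ext <;> simp [jq_add]

omit [NumberField k] [NumberField E] in
theorem jl_smul (t : E) (x : AlbL E a b c) : jl (t • x) = t • jl x := by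
  apply Alb.ext <;> simp [jl]
  all_goals
    apply Oct.ext <;> simp [jq_smul]

variable (a b c) in
/-- The map into the line. -/
def mkIL (al : E) : ((Fin 3 → E) × (Fin 3 → E)) →ₗ[E] AlbL E a b c where
  toFun v := mkI al v.1 v.2
  map_add' v w := by
    apply Alb.ext
    · simp [mkI]
    · simp [mkI]
    · simp [mkI]
    all_goals
      apply Oct.ext
      · simp [mkI]
      · simp only [mkI, Alb.x1_add, Alb.x2_add, Alb.x3_add, snd_add, ← H493.mkq_add, add_zero,
          Prod.fst_add, Prod.snd_add, Pi.add_apply]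
  map_smul' t v := by
    apply Alb.ext
    · simp [mkI]
    · simp [mkI]
    · simp [mkI]
    all_goals
      apply Oct.ext
      · simp [mkI]
      · simp only [mkI, Alb.x1_smul, Alb.x2_smul, Alb.x3_smul, snd_smul, ← H493.mkq_smul, mul_zero,
          Prod.smul_fst, Prod.smul_snd, Pi.smul_apply, smul_eq_mul, RingHom.id_apply]

omit [NumberField k] in
theorem mkIL_inj (hal : al ^ 2 = algebraMap k E a) : Function.Injective (mkIL a b c al) := by
  rw [← LinearMap.ker_eq_bot, LinearMap.ker_eq_bot']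
  rintro ⟨r, t⟩ h
  have h1 : (mkI al r t : AlbL E a b c) = 0 := h
  have h2 := congrArg (caL al) h1
  have h3 := congrArg (cgL al) h1
  rw [caL_mkI hal, map_zero] at h2
  rw [cgL_mkI hal, map_zero] at h3
  exact Prod.ext h2 h3

end Vale.Agent.P011.E6X.H637

namespace Vale.Agent.P011.E6X

open Vale.Agent.P011.MPQ Vale.Agent.P011.D4 Vale.Agent.P011.D4.Oct Vale.Agent.P011.E6
open Vale.Agent.P011.E6O
open Vale.Agent.P011.E6X.H493
open Vale.Agent.P011.E6X.H637

variable {k E : Type} [Field k] [NumberField k] [Field E] [NumberField E] [Algebra k E]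
  {ρ σ : E ≃ₐ[k] E} {lam : Eˣ} {g : Fin 3 → Eˣ} {al s : E} {a b c : kˣ}

omit [NumberField k] [NumberField E] in
theorem mem_opp {U : Submodule E (AlbL E a b c)} {y : AlbL E a b c} :
    y ∈ opp σ g al U ↔ y ∈ Iln c (ep al) ∧ ∀ x ∈ U, her σ g (jl x) y = 0 := Iff.rfl

omit [NumberField k] in
/-- The opposite space is a point. -/
theorem isPt_opp (H : E6X.Hyp ρ σ lam g al s a b c) {U : Submodule E (AlbL E a b c)}
    (hU : IsPt ρ lam U) (hI : U ≤ Iln c (E6O.em al)) : IsPt ρ lam (opp σ g al U) := by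
  have hS := hsem H
  have hlam0 : (lam : E) ≠ 0 := lam.ne_zero
  have hph : ∀ y ∈ opp σ g al U, ph ρ lam y ∈ opp σ g al U := by
    rintro y ⟨hy1, hy2⟩
    refine ⟨ph_mem_line' H hy1, fun x hx => ?_⟩
    have h3 : ph ρ lam (ph ρ lam (ph ρ lam ((lam : E)⁻¹ • x))) = x := by
      rw [hS.cube, smul_smul, mul_inv_cancel₀ hlam0, one_smul]
    rw [← h3, jl_ph, her_ph H, hy2 _ (hU.ph _ (hU.ph _ (U.smul_mem _ hx))), map_zero, mul_zero]
  have hUf : Module.Finite E U := Module.finite_of_finrank_pos (by rw [hU.dim]; omega)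
  set e := Module.finBasisOfFinrankEq E U hU.dim with he
  have hex : ∀ x (hx : x ∈ U), x = ∑ i, (e.repr ⟨x, hx⟩ i) • (e i : AlbL E a b c) := by
    intro x hx
    have h3 := congrArg (fun z : U => (z : AlbL E a b c)) (e.sum_repr ⟨x, hx⟩)
    simp only [Submodule.coe_sum, Submodule.coe_smul] at h3
    exact h3.symm
  let jL : AlbL E a b c →ₗ[E] AlbL E a b c :=
    { toFun := jl, map_add' := jl_add, map_smul' := jl_smul }
  have hjL : ∀ x, jL x = jl x := fun _ => rfl
  let L : AlbL E a b c →ₗ[E] (Fin 3 → E) :=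
    LinearMap.pi fun i => herL σ g (jl (e i : AlbL E a b c))
  have hL : ∀ y i, L y i = her σ g y (jl (e i : AlbL E a b c)) := fun y i => rfl
  let f : ((Fin 3 → E) × (Fin 3 → E)) →ₗ[E] (Fin 3 → E) := L ∘ₗ mkIL a b c al
  have hopp : opp σ g al U = (LinearMap.ker f).map (mkIL a b c al) := by
    ext y
    constructor
    · rintro ⟨hy1, hy2⟩
      have h1 := eq_mkI H.al2 hy1
      refine ⟨(caL al y, cgL al y), ?_, h1.symm⟩
      rw [SetLike.mem_coe, LinearMap.mem_ker]
      funext i
      change her σ g (mkI al (caL al y) (cgL al y)) (jl (e i : AlbL E a b c)) = 0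
      rw [← h1, ← her_star H.σ2 H.σg, hy2 _ (e i).2, map_zero]
    · rintro ⟨⟨r, t⟩, h1, rfl⟩
      refine ⟨mkI_mem H.al2 _ _, fun x hx => ?_⟩
      rw [SetLike.mem_coe, LinearMap.mem_ker] at h1
      have h2 : ∀ i, her σ g (mkI al r t) (jl (e i : AlbL E a b c)) = 0 := fun i =>
        congrFun h1 i
      have h3 : her σ g (mkI al r t) (jl x) = 0 := by
        rw [hex x hx, ← hjL, map_sum, her_sum_right]
        refine Finset.sum_eq_zero fun i _ => ?_
        rw [map_smul, her_smul_right, hjL, h2, mul_zero]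
      change her σ g (jl x) (mkI al r t) = 0
      rw [← her_star H.σ2 H.σg, h3, map_zero]
  have hdim : Module.finrank E (opp σ g al U) = Module.finrank E (LinearMap.ker f) := by
    rw [hopp]
    exact (Submodule.equivMapOfInjective _ (mkIL_inj H.al2) _).finrank_eq.symm
  have hrk := f.finrank_range_add_finrank_ker
  have hrg : Module.finrank E (LinearMap.range f) ≤ 3 := by
    have := Submodule.finrank_le (LinearMap.range f)
    rwa [Module.finrank_fin_fun] at this
  rw [Module.finrank_prod, Module.finrank_fin_fun] at hrk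
  have hfin : Module.Finite E (opp σ g al U) :=
    Module.finite_of_finrank_pos (by rw [hdim]; omega)
  have hdvd : 3 ∣ Module.finrank E (opp σ g al U) := by
    refine (hcyc H).dvd (fun x => ⟨ph ρ lam x, hph x x.2⟩) ?_ ?_ ?_
    · intro x y
      exact Subtype.ext (ph_add _ _)
    · intro t x
      exact Subtype.ext (ph_smul _ _)
    · intro x
      exact Subtype.ext (hS.cube _)
  have hne : Module.finrank E (LinearMap.ker f) ≠ 6 := by
    intro h6
    have hr0 : Module.finrank E (LinearMap.range f) = 0 := by omega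
    have hr := Submodule.finrank_eq_zero.1 hr0
    have hf0 : ∀ v, f v = 0 := fun v => by
      have h1 : f v ∈ LinearMap.range f := LinearMap.mem_range_self f v
      rw [hr] at h1
      exact (Submodule.mem_bot E).1 h1
    have hb0 : ((up E b : Eˣ) : E) ≠ 0 := (up E b).ne_zero
    have hc0 : ((up E c : Eˣ) : E) ≠ 0 := (up E c).ne_zero
    have h1 : ∀ r t : Fin 3 → E, ∑ i, wts g i * (r i * σ (cdL al (e 0 : AlbL E a b c) i) -
        t i * σ (cbL al (e 0 : AlbL E a b c) i)) = 0 := by
      intro r t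
      have h2 : her σ g (mkI al r t) (jl (e 0 : AlbL E a b c)) = 0 := congrFun (hf0 (r, t)) 0
      rw [her_ep_J H.al2 H.σal (mkI_mem H.al2 _ _) (x := (e 0 : AlbL E a b c))
        (fun i => by fin_cases i <;> rfl), caL_mkI H.al2, cgL_mkI H.al2] at h2
      exact (mul_eq_zero.1 h2).resolve_left (neg_ne_zero.2 (mul_ne_zero hc0 hb0))
    have h2 : cdL al (e 0 : AlbL E a b c) = 0 := by
      funext i
      have h3 := h1 (Pi.single i 1) 0
      simp only [Pi.single_apply, ite_mul, one_mul, zero_mul, Pi.zero_apply, sub_zero, mul_ite,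
        mul_zero, Finset.sum_ite_eq', Finset.mem_univ, if_true] at h3
      have h4 := (mul_eq_zero.1 h3).resolve_left (wts_ne g i)
      rwa [map_eq_zero] at h4
    have h3 : cbL al (e 0 : AlbL E a b c) = 0 := by
      funext i
      have h3 := h1 0 (Pi.single i 1)
      simp only [Pi.single_apply, ite_mul, one_mul, zero_mul, Pi.zero_apply, zero_sub, mul_ite,
        mul_zero, mul_neg, Finset.sum_neg_distrib, Finset.sum_ite_eq', Finset.mem_univ,
        if_true, neg_eq_zero] at h3
      have h4 := (mul_eq_zero.1 h3).resolve_left (wts_ne g i)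
      rwa [map_eq_zero] at h4
    have h4 := eq_zero_em H.al2 (hI (e 0).2) h3 h2
    exact e.ne_zero 0 (Subtype.ext h4)
  exact ⟨by omega, hph, fun x hx => adj_of_line' H.al2 hx.1⟩

end Vale.Agent.P011.E6X
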